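import Vale.Agent.P042.H188.TopHi

set_option autoImplicit false

/-!
P042, S.7: Euler product bound for the sum over the high parts of the moduli.
-/

namespace Vale.Agent.P042.H188

open Finset Vale.Agent.P042 Vale.Agent.P042.SS

theorem geo_le (N : ℕ) : ∑ j ∈ range N, (1 / 2 : ℝ) ^ (j + 1) ≤ 1 := by
  have h : ∀ N : ℕ, ∑ j ∈ range N, (1 / 2 : ℝ) ^ (j + 1) = 1 - (1 / 2) ^ N := by
    intro N
    induction N with
    | zero => simp
    | succ N ih => rw [Finset.sum_range_succ, ih, pow_succ]; ring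
  rw [h]
  have : (0 : ℝ) ≤ (1 / 2) ^ N := by positivity
  linarith

theorem geo_le' (a V : ℕ) : ∑ v ∈ Ioc a V, (1 / 2 : ℝ) ^ (v - a) ≤ 1 := by
  refine le_trans (le_of_eq ?_) (geo_le (V - a))
  symm
  apply Finset.sum_nbij (fun j => j + 1 + a)
  · intro j hj
    rw [Finset.mem_range] at hj
    rw [Finset.mem_Ioc]
    omega
  · intro i _ j _ h
    simp only at h
    omega
  · intro v hv
    rw [Finset.mem_coe, Finset.mem_Ioc] at hv
    refine ⟨v - a - 1, ?_, ?_⟩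
    · rw [Finset.mem_coe, Finset.mem_range]; omega
    · simp only; omega
  · intro j _
    congr 1
    omega

theorem sum_inv_sq (Pr : Finset ℕ) (Y : ℕ) (hY : 1 ≤ Y) (h : ∀ p ∈ Pr, Y ≤ p) :
    ∑ p ∈ Pr, 1 / (p : ℝ) ^ 2 ≤ 2 / (Y : ℝ) := by
  have h1 : Pr ⊆ Ioo (Y - 1) (Pr.sup id + 1) := by
    intro p hp
    rw [Finset.mem_Ioo]
    have h2 := h p hp
    have h3 : p ≤ Pr.sup id := Finset.le_sup (f := id) hp
    omega
  have h2 : ∑ p ∈ Pr, 1 / (p : ℝ) ^ 2 ≤
      ∑ p ∈ Ioo (Y - 1) (Pr.sup id + 1), ((p : ℝ) ^ 2)⁻¹ := by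
    have h3 : ∑ p ∈ Pr, 1 / (p : ℝ) ^ 2 = ∑ p ∈ Pr, ((p : ℝ) ^ 2)⁻¹ :=
      Finset.sum_congr rfl fun p _ => one_div _
    rw [h3]
    exact Finset.sum_le_sum_of_subset_of_nonneg h1 fun _ _ _ => by positivity
  refine h2.trans ((sum_Ioo_inv_sq_le (Y - 1) _).trans (le_of_eq ?_))
  congr 1
  have : ((Y - 1 : ℕ) : ℝ) = (Y : ℝ) - 1 := by
    rw [Nat.cast_sub hY, Nat.cast_one]
  rw [this]
  ring

theorem exp_sub_one_le {x : ℝ} (h0 : 0 ≤ x) (h1 : x ≤ 1) : Real.exp x - 1 ≤ 2 * x := by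
  have h := Real.abs_exp_sub_one_sub_id_le (x := x) (by rw [abs_of_nonneg h0]; exact h1)
  have h2 := (abs_le.1 h).2
  nlinarith

/-- sum over the high parts -/
theorem hi_sum (Pr : Finset ℕ) (g : ℕ → ℕ) (kw : ℕ → ℕ → ℝ) (τ : ℝ) (QQ : Finset ℕ) (Y : ℕ)
    (hPr : ∀ p ∈ Pr, p.Prime) (hkw0 : ∀ p j, 0 ≤ kw p j) (hY : 2 ≤ Y) (hPY : ∀ p ∈ Pr, Y ≤ p)
    (hQQ : ∀ q ∈ QQ, ∀ p ∈ q.primeFactors, p ∈ Pr)
    (hk : ∀ p ∈ Pr, ∀ v, g p < v →
      kw p v * ((p ^ v : ℕ) : ℝ) ^ (2 * τ) ≤ 1 / (p : ℝ) ^ 2 * (1 / 2) ^ (v - g p)) :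
    ∑ q2 ∈ (QQ.image (hi g)).erase 1, kapProd kw q2 * (q2 : ℝ) ^ (2 * τ) ≤ 4 / Y := by
  classical
  set HH : Finset ℕ := insert 1 ((QQ.image (hi g)).erase 1) with hHH
  have hHpos : ∀ q ∈ HH, q ≠ 0 := by
    intro q hq
    rw [hHH, Finset.mem_insert] at hq
    rcases hq with h | h
    · omega
    · obtain ⟨q0, _, h2⟩ := Finset.mem_image.1 (Finset.mem_erase.1 h).2
      have := hi_pos g q0
      omega
  have hHP : ∀ q ∈ HH, ∀ p ∈ q.primeFactors, p ∈ Pr ∧ g p < q.factorization p := by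
    intro q hq p hp
    rw [hHH, Finset.mem_insert] at hq
    rcases hq with h | h
    · rw [h] at hp; simp at hp
    · obtain ⟨q0, h1, h2⟩ := Finset.mem_image.1 (Finset.mem_erase.1 h).2
      rw [← h2] at hp ⊢
      rw [hi_pf] at hp
      rw [hi_fact, if_pos hp]
      rw [Finset.mem_filter] at hp
      exact ⟨hQQ q0 h1 p hp.1, hp.2⟩
  -- bound for the exponents
  set V : ℕ := HH.sup (fun q => Pr.sup (fun p => q.factorization p)) with hV
  have hVle : ∀ q ∈ HH, ∀ p ∈ Pr, q.factorization p ≤ V := by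
    intro q hq p hp
    have h1 : q.factorization p ≤ Pr.sup (fun p => q.factorization p) :=
      Finset.le_sup (f := fun p => q.factorization p) hp
    exact h1.trans (Finset.le_sup (f := fun q => Pr.sup (fun p => q.factorization p)) hq)
  let a : ℕ → ℕ → ℝ := fun p v => if v = 0 then 1 else kw p v * ((p ^ v : ℕ) : ℝ) ^ (2 * τ)
  have ha0 : ∀ p v, 0 ≤ a p v := by
    intro p v
    simp only [a]
    split_ifs
    · exact zero_le_one
    · exact mul_nonneg (hkw0 _ _) (Real.rpow_nonneg (Nat.cast_nonneg _) _)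
  let t : ↥Pr → Finset ℕ := fun p => insert 0 (Ioc (g p) V)
  let φ : ℕ → (↥Pr → ℕ) := fun q p => q.factorization p
  have hφmem : ∀ q ∈ HH, φ q ∈ Fintype.piFinset t := by
    intro q hq
    rw [Fintype.mem_piFinset]
    intro p
    simp only [t, φ, Finset.mem_insert, Finset.mem_Ioc]
    by_cases h0 : q.factorization p = 0
    · exact Or.inl h0
    · right
      have hp : (p : ℕ) ∈ q.primeFactors := by
        rw [← Nat.support_factorization]; exact Finsupp.mem_support_iff.2 h0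
      exact ⟨(hHP q hq p hp).2, hVle q hq p p.2⟩
  have hφinj : Set.InjOn φ HH := by
    intro q hq r hr h
    rw [Finset.mem_coe] at hq hr
    apply Nat.eq_of_factorization_eq (hHpos q hq) (hHpos r hr)
    intro p
    by_cases hp : p ∈ Pr
    · exact congrFun h ⟨p, hp⟩
    · have h1 : p ∉ q.primeFactors := fun h2 => hp (hHP q hq p h2).1
      have h2 : p ∉ r.primeFactors := fun h2 => hp (hHP r hr p h2).1
      rw [← Nat.support_factorization, Finsupp.notMem_support_iff] at h1 h2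
      rw [h1, h2]
  have hterm : ∀ q ∈ HH, kapProd kw q * (q : ℝ) ^ (2 * τ) = ∏ p : ↥Pr, a p (φ q p) := by
    intro q hq
    have hq0 := hHpos q hq
    have h1 : (q : ℝ) ^ (2 * τ) =
        ∏ p ∈ q.primeFactors, ((p ^ q.factorization p : ℕ) : ℝ) ^ (2 * τ) := by
      rw [Real.finsetProd_rpow _ _ (fun p _ => Nat.cast_nonneg _), ← Nat.cast_prod]
      congr 2
      exact (Nat.prod_factorization_pow_eq_self hq0).symm
    have h2 : ∏ p : ↥Pr, a p (φ q p) = ∏ p ∈ Pr, a p (q.factorization p) :=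
      Finset.prod_coe_sort Pr (fun p => a p (q.factorization p))
    rw [h1, h2]
    unfold kapProd
    rw [← Finset.prod_mul_distrib]
    have hsub : q.primeFactors ⊆ Pr := fun p hp => (hHP q hq p hp).1
    rw [← Finset.prod_subset hsub (f := fun p => a p (q.factorization p))]
    · refine Finset.prod_congr rfl fun p hp => ?_
      have h3 : q.factorization p ≠ 0 := by
        rw [← Nat.support_factorization] at hp
        exact Finsupp.mem_support_iff.1 hp
      simp only [a]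
      rw [if_neg h3]
    · intro p _ hp
      rw [← Nat.support_factorization, Finsupp.notMem_support_iff] at hp
      simp only [a]
      rw [if_pos hp]
  have hsum : ∑ q ∈ HH, kapProd kw q * (q : ℝ) ^ (2 * τ) ≤ ∏ p : ↥Pr, ∑ v ∈ t p, a p v := by
    rw [Finset.prod_univ_sum, Finset.sum_congr rfl hterm,
      ← Finset.sum_image (f := fun x : ↥Pr → ℕ => ∏ p : ↥Pr, a p (x p)) hφinj]
    apply Finset.sum_le_sum_of_subset_of_nonneg
    · intro x hx
      obtain ⟨q, hq, rfl⟩ := Finset.mem_image.1 hx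
      exact hφmem q hq
    · intro x _ _
      exact Finset.prod_nonneg fun p _ => ha0 _ _
  have hloc : ∀ p : ↥Pr, ∑ v ∈ t p, a p v ≤ Real.exp (1 / ((p : ℕ) : ℝ) ^ 2) := by
    intro p
    simp only [t]
    rw [Finset.sum_insert (by rw [Finset.mem_Ioc]; omega)]
    have h1 : a p 0 = 1 := if_pos rfl
    have h2 : ∑ v ∈ Ioc (g p) V, a p v ≤ 1 / ((p : ℕ) : ℝ) ^ 2 := by
      calc ∑ v ∈ Ioc (g p) V, a p v
          ≤ ∑ v ∈ Ioc (g p) V, 1 / ((p : ℕ) : ℝ) ^ 2 * (1 / 2) ^ (v - g p) := by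
            apply Finset.sum_le_sum
            intro v hv
            rw [Finset.mem_Ioc] at hv
            simp only [a]
            rw [if_neg (by omega)]
            exact hk p p.2 v hv.1
        _ = 1 / ((p : ℕ) : ℝ) ^ 2 * ∑ v ∈ Ioc (g p) V, (1 / 2 : ℝ) ^ (v - g p) := by
            rw [Finset.mul_sum]
        _ ≤ 1 / ((p : ℕ) : ℝ) ^ 2 * 1 :=
            mul_le_mul_of_nonneg_left (geo_le' _ _) (by positivity)
        _ = 1 / ((p : ℕ) : ℝ) ^ 2 := mul_one _
    rw [h1]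
    have h3 := Real.add_one_le_exp (1 / ((p : ℕ) : ℝ) ^ 2)
    linarith
  have hprod : ∏ p : ↥Pr, ∑ v ∈ t p, a p v ≤ Real.exp (2 / Y) := by
    calc ∏ p : ↥Pr, ∑ v ∈ t p, a p v
        ≤ ∏ p : ↥Pr, Real.exp (1 / ((p : ℕ) : ℝ) ^ 2) := by
          apply Finset.prod_le_prod
          · intro p _
            exact Finset.sum_nonneg fun v _ => ha0 _ _
          · intro p _
            exact hloc p
      _ = Real.exp (∑ p ∈ Pr, 1 / (p : ℝ) ^ 2) := by
          rw [← Real.exp_sum, Finset.sum_coe_sort Pr (fun p => 1 / (p : ℝ) ^ 2)]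
      _ ≤ Real.exp (2 / Y) := Real.exp_le_exp.2 (sum_inv_sq Pr Y (by omega) hPY)
  have hone : kapProd kw 1 * ((1 : ℕ) : ℝ) ^ (2 * τ) = 1 := by
    unfold kapProd
    simp
  have h1 : ∑ q ∈ HH, kapProd kw q * (q : ℝ) ^ (2 * τ) =
      1 + ∑ q2 ∈ (QQ.image (hi g)).erase 1, kapProd kw q2 * (q2 : ℝ) ^ (2 * τ) := by
    rw [hHH, Finset.sum_insert (Finset.notMem_erase _ _), hone]
  have hYr : (2 : ℝ) ≤ Y := by exact_mod_cast hY
  have h2 := exp_sub_one_le (x := 2 / (Y : ℝ)) (by positivity)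
    (by rw [div_le_one (by linarith)]; exact hYr)
  have h3 : 2 * (2 / (Y : ℝ)) = 4 / Y := by ring
  have h4 := hsum.trans hprod
  linarith

end Vale.Agent.P042.H188
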