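import Vale.Agent.P042.H188.TopWt
import Vale.Agent.P042.H527.OmLI
import Vale.Agent.P042.H944.UoPush

set_option autoImplicit false

/-!
P042, S.7: the level inequality over all top moduli for the weights `f * omc`, in the form which is
consumed by the mixed level inequality (`hlev`), and the sum over the family of top cells.
-/

namespace Vale.Agent.P042.H188

open Finset Vale.Agent.P042 Vale.Agent.P042.SS Vale.Agent.P042.TT Vale.Agent.P042.H527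
open Vale.Agent.P042.H944 (zc omc)

section
variable {ι : Type} [Fintype ι] [DecidableEq ι] {X : ι → Type} [∀ i, DecidableEq (X i)]

omit [Fintype ι] [DecidableEq ι] in
theorem omc_eq_om (w : ∀ i, X i → ℝ) (red : ℤ → ∀ i, X i) (q : ι → ℝ) (T : Finset ι)
    (x : ∀ i, X i) (n : ℤ) : omc w red q T x n = om red q w T x n := by
  unfold omc om
  refine Finset.prod_congr rfl fun i _ => ?_
  by_cases h : red n i = x i
  · rw [if_pos h, if_pos h, mul_one, div_eq_mul_inv]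
  · rw [if_neg h, if_neg h, mul_zero, zero_div]

/-- the data of one noisy cell -/
structure NC (prm : ι → ℕ) (red : ℤ → ∀ i, X i) (q : ι → ℝ) (w : ∀ i, X i → ℝ) (Pr : Finset ℕ)
    (T : Finset ι) (x : ∀ i, X i) : Prop where
  one : ∀ i ∈ T, 1 ≤ prm i
  cop : ∀ i ∈ T, ∀ j ∈ T, i ≠ j → Nat.Coprime (prm i) (prm j)
  redc : ∀ i ∈ T, ∀ n n' : ℤ, red n i = red n' i ↔ n ≡ n' [ZMOD (prm i : ℕ)]
  ex : ∀ i ∈ T, ∃ n : ℤ, red n i = x i
  q0 : ∀ i ∈ T, 0 ≤ q i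
  q1 : ∀ i ∈ T, q i ≤ 1
  pos : ∀ i ∈ T, 0 < w i (x i)
  copP : ∀ i ∈ T, ∀ p ∈ Pr, Nat.Coprime p (prm i)

variable {prm : ι → ℕ} {red : ℤ → ∀ i, X i} {q : ι → ℝ} {w : ∀ i, X i → ℝ} {Pr : Finset ℕ}
  {T : Finset ι} {x : ∀ i, X i}

theorem root_bd {A Z β : ℝ} {m : ℕ} (hA : 0 < A) (hZ : 0 < Z) (hβ : 0 < β) (hm : 2 ≤ m) :
    1 + (A * Z / β) ^ (1 / (m : ℝ)) ≤ Real.sqrt (max 1 Z) * (1 + (A / β) ^ (1 / (m : ℝ))) := by
  have hm0 : (0 : ℝ) < m := by exact_mod_cast (by omega : 0 < m)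
  have h1 : A * Z / β = Z * (A / β) := by ring
  rw [h1, Real.mul_rpow hZ.le (div_pos hA hβ).le]
  have hs1 : 1 ≤ Real.sqrt (max 1 Z) := Real.one_le_sqrt.2 (le_max_left _ _)
  have h2 : Z ^ (1 / (m : ℝ)) ≤ Real.sqrt (max 1 Z) := by
    rw [Real.sqrt_eq_rpow]
    calc Z ^ (1 / (m : ℝ)) ≤ (max 1 Z) ^ (1 / (m : ℝ)) :=
          Real.rpow_le_rpow hZ.le (le_max_right _ _) (by positivity)
      _ ≤ (max 1 Z) ^ (1 / 2 : ℝ) := by
          apply Real.rpow_le_rpow_of_exponent_le (le_max_left _ _)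
          apply one_div_le_one_div_of_le (by norm_num)
          exact_mod_cast hm
  have h3 : 0 ≤ (A / β) ^ (1 / (m : ℝ)) := Real.rpow_nonneg (div_pos hA hβ).le _
  nlinarith

/-- the class inequality for `G * om` -/
theorem cls_om (H : NC prm red q w Pr T x) (g : ℕ → ℕ) (M : ℕ) (y : ℤ) (G : ℤ → ℝ) (Gm : ℝ)
    (hPr : ∀ p ∈ Pr, p.Prime) (hg : ∀ p ∈ Pr, 1 ≤ g p) (hG0 : ∀ n, 0 ≤ G n)
    (hG1 : ∀ n, G n ≤ Gm) (hGm : 0 < Gm) (hM : 1 ≤ M) :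
    Cls Pr g (fun d r => ∀ z : ℤ,
        mass (fun n => G n * om red q w T x n) y M d z ≤ r * (M / (d : ℝ)))
      (enG (fun n => G n * om red q w T x n) y M)
      (2 * (M : ℝ) ^ 2 * Real.sqrt (max 1 (Zom prm q w T x))) Gm
      (M / ∏ i ∈ T, (prm i : ℝ)) := by
  intro q2 m Xb β b Qs hq2 hm hX hβ hb hc hMB hQs
  have hZ := Zom_pos q w T x prm H.one H.q0 H.q1 H.pos
  rcases Qs.eq_empty_or_nonempty with hemp | ⟨q0, hq0⟩
  · rw [hemp, Finset.sum_empty]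
    positivity
  have hq2P : ∀ p ∈ q2.primeFactors, p ∈ Pr := by
    obtain ⟨_, h2, h3, _⟩ := hQs q0 hq0
    intro p hp
    rw [← h3, hi_pf] at hp
    exact h2 p (Finset.mem_filter.1 hp).1
  have hprod : 0 < ∏ i ∈ T, prm i := Finset.prod_pos fun i hi => H.one i hi
  have hprodr : (0 : ℝ) < ∏ i ∈ T, (prm i : ℝ) := by
    rw [← Nat.cast_prod]
    exact_mod_cast hprod
  have hD : ((⌊Xb⌋₊ : ℕ) : ℝ) ≤ Xb := Nat.floor_le (by linarith)
  have hcard : ((Fmm Pr g Xb).card : ℝ) ≤ Xb := (Fmm_card hPr hg).trans hD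
  have hpb := pow_bound (q2 := q2) (m := m) hX hD hcard hc
  have h := li3_om red q w T x prm H.one H.cop H.redc H.ex H.q0 H.q1 H.pos Pr g q2 ⌊Xb⌋₊ m M β Gm
    (fun p => (24 * m * b p)⁻¹) b G y (Fmm Pr g Xb) Qs hPr hq2 hm hβ hGm
    (fun p hp => by
      have := hb p hp
      positivity) hb
    (fun p hp => rho_cond hm (hb p hp)) hG0 hG1
    (fun S hS T hT => Fmm_down hPr hS hT)
    (fun S hS => Nat.le_floor (mem_Fmm.1 hS).2) hM H.copP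
    (fun i hi => by
      rw [Nat.coprime_comm]
      apply Nat.coprime_of_dvd
      intro p hp hpi hpq
      have h5 : p ∈ q2.primeFactors := Nat.mem_primeFactors.2 ⟨hp, hpq, by omega⟩
      exact (Nat.Prime.coprime_iff_not_dvd hp).1 (H.copP i hi p (hq2P p h5)) hpi)
    (by
      rw [le_div_iff₀ hprodr] at hpb
      have h1 : (((∏ i ∈ T, prm i) * (q2 * ⌊Xb⌋₊ ^ (2 * m + 1) * (Fmm Pr g Xb).card ^ (2 * m)) :
          ℕ) : ℝ) ≤ M := by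
        rw [Nat.cast_mul, mul_comm, Nat.cast_prod]
        exact hpb
      exact_mod_cast h1)
    hMB
    (by
      intro k hk
      obtain ⟨h1, h2, h3, h4⟩ := hQs k hk
      refine ⟨h1, ?_, ?_⟩
      · rw [← h3]; exact good_hi g Pr h2
      · rw [← h3, Ug_hi, mem_Fmm]
        exact ⟨fun p hp => h2 p (lo_sub g k hp), h4⟩)
  have h5 : ∀ k ∈ Qs, (∏ p ∈ lo g k, (24 * m * b p)⁻¹) *
      enG (fun n => G n * om red q w T x n) y M k =
      (∏ p ∈ Ug q2 k, (24 * m * b p)⁻¹) * enG (fun n => G n * om red q w T x n) y M k := by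
    intro k hk
    rw [← (hQs k hk).2.2.1, Ug_hi]
  rw [Finset.sum_congr rfl h5]
  refine h.trans ?_
  have h6 := root_bd (m := m) hGm hZ hβ hm
  calc (M : ℝ) ^ 2 * (2 * β ^ 2 * (1 + (Gm * Zom prm q w T x / β) ^ (1 / (m : ℝ))))
      = 2 * (M : ℝ) ^ 2 * β ^ 2 * (1 + (Gm * Zom prm q w T x / β) ^ (1 / (m : ℝ))) := by ring
    _ ≤ 2 * (M : ℝ) ^ 2 * β ^ 2 *
        (Real.sqrt (max 1 (Zom prm q w T x)) * (1 + (Gm / β) ^ (1 / (m : ℝ)))) :=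
        mul_le_mul_of_nonneg_left h6 (by positivity)
    _ = _ := by ring

/-- **sum over all top moduli for `G * om`** -/
theorem top_om (H : NC prm red q w Pr T x) (g : ℕ → ℕ) (M M0 J : ℕ) (y : ℤ) (G : ℤ → ℝ)
    (kw : ℕ → ℕ → ℝ) (B Gm X0 τ σ lam0 ε1 ε2 : ℝ) (QQ : Finset ℕ)
    (hPr : ∀ p ∈ Pr, p.Prime) (hg : ∀ p ∈ Pr, 1 ≤ g p) (hkw : ∀ p j, 0 ≤ kw p j)
    (hG0 : ∀ n, 0 ≤ G n) (hG1 : ∀ n, G n ≤ Gm) (hGm : 0 < Gm) (hM : 1 ≤ M)
    (hX0 : 0 < X0) (hJ : 1 ≤ J) (hGJ : Real.log (Gm * (M / X0)) ≤ 2 ^ J)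
    (hτ : 0 ≤ τ) (hlam : 0 < lam0) (hσ : 4 ≤ σ * lam0) (h10 : 0 ≤ ε1) (h11 : ε1 ≤ 1)
    (h20 : 0 ≤ ε2) (h21 : ε2 ≤ 1)
    (hcap : (∏ i ∈ T, (prm i : ℝ)) * (M0 * Real.exp (5 * 2 ^ J * lam0)) ≤ M)
    (hmass : ∀ d : ℕ, 1 ≤ d → (d : ℝ) ≤ M0 * Real.exp (2 ^ (J - 1) * lam0) →
      (∀ p ∈ d.primeFactors, p ∈ Pr) → ∀ z : ℤ,
        mass (fun n => G n * om red q w T x n) y M d z ≤ B * (d : ℝ) ^ τ * (X0 / d))
    (hQ : ∀ k ∈ QQ, 1 < k ∧ k ≤ M0 ∧ (∀ p ∈ k.primeFactors, p ∈ Pr) ∧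
      (spn g k : ℝ) ≤ Real.exp (2 ^ (J - 1) * lam0))
    (h1 : ∀ p ∈ Pr, ∀ v, 1 ≤ v → v ≤ g p →
      kw p v * (24 * 2 ^ J * ((p ^ g p : ℕ) : ℝ) ^ (τ + σ)) ≤ ε1)
    (h2 : ∑ q2 ∈ (QQ.image (hi g)).erase 1, kapProd kw q2 * (q2 : ℝ) ^ (2 * τ) ≤ ε2) :
    ∑ k ∈ QQ, kapProd kw k * enG (fun n => G n * om red q w T x n) y M k ≤
      64 * (ε1 + ε2) * X0 ^ 2 * (B ^ 2 + 1) * Real.sqrt (max 1 (Zom prm q w T x)) := by
  have hMr : (0 : ℝ) < M := by exact_mod_cast hM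
  have hprodr : (0 : ℝ) < ∏ i ∈ T, (prm i : ℝ) := by
    apply Finset.prod_pos
    intro i hi
    exact_mod_cast H.one i hi
  set c : ℝ := M / X0 with hc
  have hc0 : 0 < c := by positivity
  set B' : ℝ := max B 1 with hB'
  have hB'0 : 0 < B' := lt_of_lt_of_le one_pos (le_max_right _ _)
  have hB'2 : B' ^ 2 + 1 ≤ 2 * (B ^ 2 + 1) := by
    rcases le_total B 1 with h | h
    · rw [hB', max_eq_right h]
      nlinarith [sq_nonneg B]
    · rw [hB', max_eq_left h]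
      nlinarith [sq_nonneg B]
  have hfun : ∀ n, (c * G n) * om red q w T x n = c * (G n * om red q w T x n) := fun n => by ring
  have H' : SumH Pr g (fun d r => ∀ z : ℤ,
        mass (fun n => (c * G n) * om red q w T x n) y M d z ≤ r * (M / (d : ℝ)))
      (enG (fun n => (c * G n) * om red q w T x n) y M)
      (2 * (M : ℝ) ^ 2 * Real.sqrt (max 1 (Zom prm q w T x))) (Gm * c)
      (M / ∏ i ∈ T, (prm i : ℝ)) kw M0 J B' τ σ lam0 ε1 ε2 QQ :=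
    { prime := hPr
      hg := hg
      cls := cls_om H g M y (fun n => c * G n) (Gm * c) hPr hg
        (fun n => mul_nonneg hc0.le (hG0 n))
        (fun n => by
          rw [mul_comm Gm c]
          exact mul_le_mul_of_nonneg_left (hG1 n) hc0.le)
        (by positivity) hM
      En0 := fun k => Finset.sum_nonneg fun _ _ => sq_nonneg _
      K0 := by positivity
      kw0 := hkw
      A0 := by positivity
      J1 := hJ
      A1 := hGJ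
      B0 := hB'0
      τ0 := hτ
      lam := hlam
      σl := hσ
      e10 := h10
      e11 := h11
      e20 := h20
      e21 := h21
      mass := by
        intro d hd1 hd2 hd3 z
        have h3 := hmass d hd1 hd2 hd3 z
        have hdr : (0 : ℝ) < d := by exact_mod_cast hd1
        have h4 : 0 ≤ (d : ℝ) ^ τ := Real.rpow_nonneg hdr.le _
        simp only [hfun]
        rw [mass_smul]
        calc c * mass (fun n => G n * om red q w T x n) y M d z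
            ≤ c * (B * (d : ℝ) ^ τ * (X0 / d)) := mul_le_mul_of_nonneg_left h3 hc0.le
          _ = B * (d : ℝ) ^ τ * (M / d) := by
              rw [hc]; field_simp
          _ ≤ B' * (d : ℝ) ^ τ * (M / d) := by
              have : B ≤ B' := le_max_left _ _
              gcongr
      cap := by
        rw [le_div_iff₀ hprodr, mul_comm]
        exact hcap
      hQ := hQ
      h1 := h1
      h2 := h2 }
  have h := H'.total
  have h3 : ∑ k ∈ QQ, kapProd kw k * enG (fun n => (c * G n) * om red q w T x n) y M k =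
      c ^ 2 * ∑ k ∈ QQ, kapProd kw k * enG (fun n => G n * om red q w T x n) y M k := by
    rw [Finset.mul_sum]
    refine Finset.sum_congr rfl fun k _ => ?_
    simp only [hfun]
    rw [enG_smul]
    ring
  rw [h3] at h
  have hc2 : 0 < c ^ 2 := by positivity
  rw [← le_div_iff₀' hc2] at h
  refine h.trans ?_
  rw [div_le_iff₀ hc2]
  have h4 : X0 ^ 2 * c ^ 2 = (M : ℝ) ^ 2 := by
    rw [hc]; field_simp
  have h5 : 0 ≤ Real.sqrt (max 1 (Zom prm q w T x)) := Real.sqrt_nonneg _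
  calc 16 * (ε1 + ε2) * (2 * (M : ℝ) ^ 2 * Real.sqrt (max 1 (Zom prm q w T x))) * (B' ^ 2 + 1)
      ≤ 16 * (ε1 + ε2) * (2 * (M : ℝ) ^ 2 * Real.sqrt (max 1 (Zom prm q w T x))) *
          (2 * (B ^ 2 + 1)) := by gcongr
    _ = 64 * (ε1 + ε2) * X0 ^ 2 * (B ^ 2 + 1) * Real.sqrt (max 1 (Zom prm q w T x)) * c ^ 2 := by
        rw [← h4]; ring

end

/-! ### the integer form -/

/-- the moduli of the top cells -/
noncomputable def DM (Pr : Finset ℕ) (Y : ℝ) : Finset ℕ :=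
  (Icc 1 ⌊Y⌋₊).filter (fun d => ∀ p ∈ d.primeFactors, p ∈ Pr)

theorem mem_DM {Pr : Finset ℕ} {Y : ℝ} (hY : 0 ≤ Y) {d : ℕ} :
    d ∈ DM Pr Y ↔ 1 ≤ d ∧ (d : ℝ) ≤ Y ∧ ∀ p ∈ d.primeFactors, p ∈ Pr := by
  unfold DM
  rw [Finset.mem_filter, Finset.mem_Icc]
  constructor
  · rintro ⟨⟨h1, h2⟩, h3⟩
    exact ⟨h1, (Nat.le_floor_iff hY).1 h2, h3⟩
  · rintro ⟨h1, h2, h3⟩
    exact ⟨⟨h1, (Nat.le_floor_iff hY).2 h2⟩, h3⟩

/-- the family of the top cells -/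
noncomputable def SGt (Pr : Finset ℕ) (Y : ℝ) : Finset (Σ _ : ℕ, ℕ) :=
  (DM Pr Y).sigma (fun d => range d)

/-- the top cell -/
def tcell (S : Finset ℤ) (sg : Σ _ : ℕ, ℕ) : Finset ℤ :=
  S.filter (fun n => n ≡ (sg.2 : ℤ) [ZMOD (sg.1 : ℕ)])

theorem tcell_sub (S : Finset ℤ) (sg : Σ _ : ℕ, ℕ) : tcell S sg ⊆ S := Finset.filter_subset _ _

section
variable {ι : Type} [Fintype ι] [DecidableEq ι] {X : ι → Type} [∀ i, DecidableEq (X i)]
variable {prm : ι → ℕ} {red : ℤ → ∀ i, X i} {q : ι → ℝ} {w : ∀ i, X i → ℝ} {Pr : Finset ℕ}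
  {T : Finset ι} {x : ∀ i, X i}

/-- **the hypothesis `hlev` of the mixed level inequality, integer form** -/
theorem hlev_S (H : NC prm red q w Pr T x) (g : ℕ → ℕ) (M M0 J : ℕ) (y : ℤ) (S : Finset ℤ)
    (f : ℤ → ℝ) (kw : ℕ → ℕ → ℝ) (B Gm X0 τ σ lam0 ε1 ε2 : ℝ) (QQ : Finset ℕ)
    (hS : S ⊆ Ioc y (y + M))
    (hPr : ∀ p ∈ Pr, p.Prime) (hg : ∀ p ∈ Pr, 1 ≤ g p) (hkw : ∀ p j, 0 ≤ kw p j)
    (hf0 : ∀ n ∈ S, 0 ≤ f n) (hf1 : ∀ n ∈ S, f n ≤ Gm) (hGm : 0 < Gm) (hM : 1 ≤ M)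
    (hX0 : 0 < X0) (hJ : 1 ≤ J) (hGJ : Real.log (Gm * (M / X0)) ≤ 2 ^ J)
    (hτ : 0 ≤ τ) (hlam : 0 < lam0) (hσ : 4 ≤ σ * lam0) (h10 : 0 ≤ ε1) (h11 : ε1 ≤ 1)
    (h20 : 0 ≤ ε2) (h21 : ε2 ≤ 1)
    (hcap : (∏ i ∈ T, (prm i : ℝ)) * (M0 * Real.exp (5 * 2 ^ J * lam0)) ≤ M)
    (hA : ∀ sg ∈ SGt Pr (M0 * Real.exp (2 ^ (J - 1) * lam0)),
      ∑ n ∈ tcell S sg, f n * omc w red q T x n ≤ B * (X0 * (sg.1 : ℝ) ^ τ / sg.1))
    (hQ : ∀ k ∈ QQ, 1 < k ∧ k ≤ M0 ∧ (∀ p ∈ k.primeFactors, p ∈ Pr) ∧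
      (spn g k : ℝ) ≤ Real.exp (2 ^ (J - 1) * lam0))
    (h1 : ∀ p ∈ Pr, ∀ v, 1 ≤ v → v ≤ g p →
      kw p v * (24 * 2 ^ J * ((p ^ g p : ℕ) : ℝ) ^ (τ + σ)) ≤ ε1)
    (h2 : ∑ q2 ∈ (QQ.image (hi g)).erase 1, kapProd kw q2 * (q2 : ℝ) ^ (2 * τ) ≤ ε2) :
    ∑ k ∈ QQ, kapProd kw k * ∑ a ∈ (range k).filter (Nat.Coprime k),
        ‖∑ n ∈ S, ((f n * omc w red q T x n : ℝ) : ℂ) * zc a k n‖ ^ 2 ≤
      64 * (ε1 + ε2) * X0 ^ 2 * (B ^ 2 + 1) * Real.sqrt (max 1 (Zom prm q w T x)) := by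
  classical
  set G : ℤ → ℝ := fun n => if n ∈ S then f n else 0 with hG
  have hsumS : ∀ {α : Type} [AddCommMonoid α] (h : ℤ → α) (A : Finset ℤ), A ⊆ Ioc y (y + M) →
      (∀ n ∈ Ioc y (y + (M : ℤ)), n ∉ A → h n = 0) → ∑ n ∈ Ioc y (y + (M : ℤ)), h n = ∑ n ∈ A, h n := by
    intro α _ h A hA h0
    symm
    exact Finset.sum_subset hA h0
  have hmass : ∀ d : ℕ, 1 ≤ d → (d : ℝ) ≤ M0 * Real.exp (2 ^ (J - 1) * lam0) →
      (∀ p ∈ d.primeFactors, p ∈ Pr) → ∀ z : ℤ,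
        mass (fun n => G n * om red q w T x n) y M d z ≤ B * (d : ℝ) ^ τ * (X0 / d) := by
    intro d hd1 hd2 hd3 z
    have hdz : (0 : ℤ) < (d : ℤ) := by exact_mod_cast hd1
    set z' : ℕ := (z % (d : ℤ)).toNat with hz'
    have hz0 : 0 ≤ z % (d : ℤ) := Int.emod_nonneg _ hdz.ne'
    have hz1 : z % (d : ℤ) < d := Int.emod_lt_of_pos _ hdz
    have hzc : ((z' : ℕ) : ℤ) = z % (d : ℤ) := Int.toNat_of_nonneg hz0
    have hmem : (⟨d, z'⟩ : Σ _ : ℕ, ℕ) ∈ SGt Pr (M0 * Real.exp (2 ^ (J - 1) * lam0)) := by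
      unfold SGt
      rw [Finset.mem_sigma]
      refine ⟨(mem_DM (by positivity)).2 ⟨hd1, hd2, hd3⟩, ?_⟩
      rw [Finset.mem_range]
      show z' < d
      omega
    have h3 := hA _ hmem
    have h4 : mass (fun n => G n * om red q w T x n) y M d z =
        ∑ n ∈ tcell S ⟨d, z'⟩, f n * omc w red q T x n := by
      unfold mass tcell
      have h5 : ∀ n : ℤ, n ≡ z [ZMOD (d : ℕ)] ↔ n ≡ (z' : ℤ) [ZMOD (d : ℕ)] := by
        intro n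
        rw [hzc]
        have h6 : z % (d : ℤ) ≡ z [ZMOD (d : ℕ)] := Int.mod_modEq _ _
        exact ⟨fun h => h.trans h6.symm, fun h => h.trans h6⟩
      rw [Finset.sum_filter, Finset.sum_filter]
      rw [hsumS (fun n => if n ≡ z [ZMOD (d : ℕ)] then G n * om red q w T x n else 0) S hS
        (by
          intro n _ hn
          simp only [hG]
          rw [if_neg hn, zero_mul, ite_self])]
      refine Finset.sum_congr rfl fun n hn => ?_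
      simp only [hG]
      rw [if_pos hn, omc_eq_om]
      by_cases h7 : n ≡ z [ZMOD (d : ℕ)]
      · rw [if_pos h7, if_pos ((h5 n).1 h7)]
      · rw [if_neg h7, if_neg (fun h => h7 ((h5 n).2 h))]
    rw [h4]
    refine h3.trans (le_of_eq ?_)
    ring
  have h := top_om H g M M0 J y G kw B Gm X0 τ σ lam0 ε1 ε2 QQ hPr hg hkw
    (fun n => by
      simp only [hG]
      split_ifs with hn
      · exact hf0 n hn
      · exact le_rfl)
    (fun n => by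
      simp only [hG]
      split_ifs with hn
      · exact hf1 n hn
      · exact hGm.le)
    hGm hM hX0 hJ hGJ hτ hlam hσ h10 h11 h20 h21 hcap hmass hQ h1 h2
  refine le_trans (le_of_eq ?_) h
  refine Finset.sum_congr rfl fun k _ => ?_
  congr 1
  unfold enG
  refine Finset.sum_congr rfl fun a _ => ?_
  congr 2
  unfold Fw zc
  rw [hsumS (fun n => ((G n * om red q w T x n : ℝ) : ℂ) * e (-((n : ℝ) * ((a : ℝ) / k)))) S hS
    (by
      intro n _ hn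
      simp only [hG]
      rw [if_neg hn, zero_mul, Complex.ofReal_zero, zero_mul])]
  refine Finset.sum_congr rfl fun n hn => ?_
  simp only [hG]
  rw [if_pos hn, omc_eq_om]

end

/-- **sum over the family of the top cells** -/
theorem sum_SGt (Pr : Finset ℕ) (Y C c0 X0 τ τ0 : ℝ) (m : ℕ) (hm : 1 ≤ m) (hY : 0 ≤ Y)
    (hC : 0 ≤ C) (hX0 : 0 < X0) (hτ : 2 ≤ m * (τ - τ0)) :
    (∑ sg ∈ SGt Pr Y, ((C * (c0 * (X0 * (sg.1 : ℝ) ^ τ0 / sg.1)) ^ 2) /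
      (X0 * (sg.1 : ℝ) ^ τ / sg.1) ^ 2) ^ m) ^ ((m : ℝ)⁻¹) ≤ 2 * (C * c0 ^ 2) := by
  have hm0 : (0 : ℝ) < m := by exact_mod_cast hm
  have h1 : ∀ sg ∈ SGt Pr Y, ((C * (c0 * (X0 * (sg.1 : ℝ) ^ τ0 / sg.1)) ^ 2) /
      (X0 * (sg.1 : ℝ) ^ τ / sg.1) ^ 2) ^ m ≤ (C * c0 ^ 2) ^ m * (((sg.1 : ℝ)) ^ 4)⁻¹ := by
    intro sg hsg
    unfold SGt at hsg
    rw [Finset.mem_sigma, mem_DM hY] at hsg
    have hd1 : (1 : ℝ) ≤ (sg.1 : ℝ) := by exact_mod_cast hsg.1.1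
    have hd0 : (0 : ℝ) < (sg.1 : ℝ) := by linarith
    set d : ℝ := (sg.1 : ℝ) with hd
    have e1 : (C * (c0 * (X0 * d ^ τ0 / d)) ^ 2) / (X0 * d ^ τ / d) ^ 2 =
        (C * c0 ^ 2) * (d ^ (τ0 - τ)) ^ 2 := by
      rw [Real.rpow_sub hd0]
      have := Real.rpow_pos_of_pos hd0 τ
      have := Real.rpow_pos_of_pos hd0 τ0
      field_simp
    rw [e1, mul_pow]
    apply mul_le_mul_of_nonneg_left _ (by positivity)
    rw [← pow_mul, ← Real.rpow_natCast (d ^ (τ0 - τ)), ← Real.rpow_mul hd0.le,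
      ← Real.rpow_natCast d 4, ← Real.rpow_neg hd0.le]
    apply Real.rpow_le_rpow_of_exponent_le hd1
    push_cast
    nlinarith
  have h2 : ∑ sg ∈ SGt Pr Y, (((sg.1 : ℝ)) ^ 4)⁻¹ ≤ 2 := by
    unfold SGt
    rw [Finset.sum_sigma]
    have h3 : ∀ d ∈ DM Pr Y, ∑ _z ∈ range d, (((d : ℝ)) ^ 4)⁻¹ ≤ ((d : ℝ) ^ 2)⁻¹ := by
      intro d hd
      rw [mem_DM hY] at hd
      have hd1 : (1 : ℝ) ≤ (d : ℝ) := by exact_mod_cast hd.1
      rw [Finset.sum_const, Finset.card_range, nsmul_eq_mul]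
      rw [← div_eq_mul_inv, div_le_iff₀ (by positivity), ← div_eq_inv_mul,
        le_div_iff₀ (by positivity)]
      nlinarith [mul_pos (by linarith : (0:ℝ) < d) (by linarith : (0:ℝ) < d),
        pow_pos (by linarith : (0:ℝ) < d) 3, pow_le_pow_right₀ hd1 (show 3 ≤ 4 by norm_num)]
    refine (Finset.sum_le_sum h3).trans ?_
    have h4 : DM Pr Y ⊆ Ioo 0 (⌊Y⌋₊ + 1) := by
      intro d hd
      unfold DM at hd
      rw [Finset.mem_filter, Finset.mem_Icc] at hd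
      rw [Finset.mem_Ioo]
      omega
    refine (Finset.sum_le_sum_of_subset_of_nonneg h4 fun _ _ _ => by positivity).trans ?_
    have h5 := sum_Ioo_inv_sq_le (α := ℝ) 0 (⌊Y⌋₊ + 1)
    refine h5.trans (le_of_eq ?_)
    norm_num
  have h3 : ∑ sg ∈ SGt Pr Y, ((C * (c0 * (X0 * (sg.1 : ℝ) ^ τ0 / sg.1)) ^ 2) /
      (X0 * (sg.1 : ℝ) ^ τ / sg.1) ^ 2) ^ m ≤ (2 * (C * c0 ^ 2)) ^ m := by
    refine (Finset.sum_le_sum h1).trans ?_
    rw [← Finset.mul_sum]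
    have h40 : (2 * (C * c0 ^ 2)) ^ m = 2 ^ m * (C * c0 ^ 2) ^ m := mul_pow _ _ _
    rw [h40]
    have h4 : (2 : ℝ) ≤ 2 ^ m := by
      calc (2 : ℝ) = 2 ^ 1 := (pow_one _).symm
        _ ≤ 2 ^ m := pow_le_pow_right₀ (by norm_num) hm
    calc (C * c0 ^ 2) ^ m * ∑ sg ∈ SGt Pr Y, (((sg.1 : ℝ)) ^ 4)⁻¹
        ≤ (C * c0 ^ 2) ^ m * 2 := mul_le_mul_of_nonneg_left h2 (by positivity)
      _ ≤ (C * c0 ^ 2) ^ m * 2 ^ m := mul_le_mul_of_nonneg_left h4 (by positivity)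
      _ = 2 ^ m * (C * c0 ^ 2) ^ m := by ring
  have h6 : 0 ≤ ∑ sg ∈ SGt Pr Y, ((C * (c0 * (X0 * (sg.1 : ℝ) ^ τ0 / sg.1)) ^ 2) /
      (X0 * (sg.1 : ℝ) ^ τ / sg.1) ^ 2) ^ m :=
    Finset.sum_nonneg fun sg _ => pow_nonneg (div_nonneg (by positivity) (sq_nonneg _)) _
  calc _ ≤ ((2 * (C * c0 ^ 2)) ^ m) ^ ((m : ℝ)⁻¹) := Real.rpow_le_rpow h6 h3 (by positivity)
    _ = 2 * (C * c0 ^ 2) := Real.pow_rpow_inv_natCast (by positivity) (by omega)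

end Vale.Agent.P042.H188
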