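import Vale.Agent.P042.H188.Hlev
import Vale.Agent.P042.H419.Ctx
import Vale.Agent.P042.H48.TopDef

set_option autoImplicit false

/-!
P042, S.7: the data `NC` of the noisy cells and the length condition in the frame of LEAF T.
-/

namespace Vale.Agent.P042.H188

open Finset Vale.Agent.P042 Vale.Agent.P042.SS Vale.Agent.P042.TT Vale.Agent.P042.H527
open Vale.Agent.P042.H359 (redZ)
open Vale.Agent.P042.H419 (PrmS wS)
open Vale.Agent.P042.H48.Top (PrT)

section
variable {ι : Type} [Fintype ι] [DecidableEq ι] {prm : ι → ℕ}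

omit [Fintype ι] [DecidableEq ι] in
theorem wS_nonneg {N' : ℕ} {mu : ℕ → ℝ} (h : H599.Law mu 1 N') (i : ι) (a : ZMod (prm i)) :
    0 ≤ wS prm N' mu i a := by
  unfold wS H599.cm
  refine Finset.sum_nonneg fun j hj => ?_
  split_ifs
  · exact h.nonneg j (Finset.mem_range.1 hj)
  · exact le_rfl

omit [Fintype ι] [DecidableEq ι] in
/-- **the data `NC` in the frame** -/
theorem nc_frame [∀ i, NeZero (prm i)] {E A' : ℕ} {P : ℝ} (hprm : PrmS E A' P prm) {N' : ℕ}
    {mu : ℕ → ℝ} (hlaw : H599.Law mu 1 N') {m : ℕ} (hm : 1 ≤ m) {cc : ι → ℝ}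
    (hcc : ∀ i, 0 ≤ cc i) {Tn : Finset ℕ} {M0 : ℕ} (T' : Finset ι) (x : ∀ i, ZMod (prm i))
    (hx : ∀ i ∈ T', wS prm N' mu i (x i) ≠ 0) :
    NC prm (redZ prm) (fun i => 1 / (8 * m * (1 + cc i))) (wS prm N' mu) (PrT Tn prm M0) T' x where
  one := fun i _ => (hprm.prime i).one_le
  cop := fun i _ j _ hij => (Nat.coprime_primes (hprm.prime i) (hprm.prime j)).2
    fun h => hij (hprm.inj h)
  redc := fun i _ n n' => ZMod.intCast_eq_intCast_iff n n' (prm i)
  ex := fun i _ => ZMod.intCast_surjective (x i)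
  q0 := fun i _ => by
    have := hcc i
    positivity
  q1 := fun i _ => by
    have h1 := hcc i
    have h2 : (1 : ℝ) ≤ m := by exact_mod_cast hm
    rw [div_le_one (by positivity)]
    nlinarith
  pos := fun i hi => lt_of_le_of_ne (wS_nonneg hlaw i _) (Ne.symm (hx i hi))
  copP := fun i _ p hp => by
    have hp' := H48.Top.mem_PrT.1 hp
    exact (Nat.coprime_primes hp'.2.1 (hprm.prime i)).2 fun h => hp'.2.2.2 i h.symm

omit [Fintype ι] [DecidableEq ι] in
/-- **the length condition in the frame** -/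
theorem cap_frame {E A' : ℕ} {P : ℝ} (hprm : PrmS E A' P prm) (hl : 2 ≤ Real.log P)
    (hP : 56 ≤ P) {D M0 J N' M : ℕ} {lam0 th' κ : ℝ} (hD : 10000 * D * Real.log P ≤ P)
    {T' : Finset ι} (hT : T'.card ≤ D) (hM0 : (M0 : ℝ) ≤ Real.exp (P / Real.log P ^ 2))
    (hJ : 2 ^ J * lam0 = th' * P) (hth : th' ≤ 1 / 1000) (hκ : κ ≤ 1 / 8)
    (hN : Real.exp ((1 - κ) * P) ≤ N') (hM : N' ≤ 1000 * M) :
    (∏ i ∈ T', (prm i : ℝ)) * (M0 * Real.exp (5 * 2 ^ J * lam0)) ≤ M := by
  have hP0 : 0 < P := by linarith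
  have hl0 : 0 < Real.log P := by linarith
  have hlA : 1 ≤ Real.log P ^ A' := one_le_pow₀ (by linarith)
  have h1 : ∏ i ∈ T', (prm i : ℝ) ≤ Real.exp (P / 5000) := by
    have h2 : ∀ i ∈ T', (prm i : ℝ) ≤ Real.exp (2 * Real.log P) := by
      intro i _
      have h3 := hprm.hi i
      have h4 : P ^ 2 / Real.log P ^ A' ≤ P ^ 2 := div_le_self (sq_nonneg P) hlA
      have h5 : Real.exp (2 * Real.log P) = P ^ 2 := by
        rw [two_mul, Real.exp_add, Real.exp_log hP0]
        ring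
      rw [h5]
      exact h3.trans h4
    calc ∏ i ∈ T', (prm i : ℝ) ≤ ∏ _i ∈ T', Real.exp (2 * Real.log P) :=
          Finset.prod_le_prod (fun i _ => Nat.cast_nonneg _) h2
      _ = Real.exp (T'.card * (2 * Real.log P)) := by
          rw [Finset.prod_const, ← Real.exp_nat_mul]
      _ ≤ Real.exp (P / 5000) := by
          apply Real.exp_le_exp.2
          have h6 : (T'.card : ℝ) ≤ D := by exact_mod_cast hT
          have h7 : (T'.card : ℝ) * Real.log P ≤ D * Real.log P :=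
            mul_le_mul_of_nonneg_right h6 hl0.le
          linarith
  have h8 : (M0 : ℝ) ≤ Real.exp (P / 4) := by
    refine hM0.trans (Real.exp_le_exp.2 ?_)
    apply div_le_div_of_nonneg_left hP0.le (by norm_num)
    nlinarith
  have h9 : Real.exp (5 * 2 ^ J * lam0) ≤ Real.exp (P / 200) := by
    apply Real.exp_le_exp.2
    have : 5 * 2 ^ J * lam0 = 5 * (2 ^ J * lam0) := by ring
    rw [this, hJ]
    nlinarith
  have h10 : (1000 : ℝ) ≤ Real.exp 7 := by
    have h11 : (2.7182818283 : ℝ) < Real.exp 1 := Real.exp_one_gt_d9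
    have h12 : Real.exp 7 = Real.exp 1 ^ 7 := by
      rw [← Real.exp_nat_mul]
      norm_num
    rw [h12]
    calc (1000 : ℝ) ≤ 2.7182818283 ^ 7 := by norm_num
      _ ≤ Real.exp 1 ^ 7 := pow_le_pow_left₀ (by norm_num) h11.le 7
  have h13 : Real.exp ((1 - κ) * P) ≤ 1000 * M := by
    have h14 : (N' : ℝ) ≤ 1000 * M := by exact_mod_cast hM
    exact hN.trans h14
  have h15 : 1000 * Real.exp (P / 5000 + P / 4 + P / 200) ≤ Real.exp ((1 - κ) * P) := by
    calc 1000 * Real.exp (P / 5000 + P / 4 + P / 200)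
        ≤ Real.exp 7 * Real.exp (P / 5000 + P / 4 + P / 200) :=
          mul_le_mul_of_nonneg_right h10 (Real.exp_pos _).le
      _ = Real.exp (7 + (P / 5000 + P / 4 + P / 200)) := by rw [← Real.exp_add]
      _ ≤ Real.exp ((1 - κ) * P) := by
          apply Real.exp_le_exp.2
          nlinarith
  have h16 : Real.exp (P / 5000 + P / 4 + P / 200) ≤ M := by linarith
  refine le_trans ?_ h16
  have h18 : (M0 : ℝ) * Real.exp (5 * 2 ^ J * lam0) ≤ Real.exp (P / 4) * Real.exp (P / 200) :=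
    mul_le_mul h8 h9 (Real.exp_pos _).le (Real.exp_pos _).le
  calc (∏ i ∈ T', (prm i : ℝ)) * (M0 * Real.exp (5 * 2 ^ J * lam0))
      ≤ Real.exp (P / 5000) * (Real.exp (P / 4) * Real.exp (P / 200)) :=
        mul_le_mul h1 h18 (by positivity) (Real.exp_pos _).le
    _ = Real.exp (P / 5000 + P / 4 + P / 200) := by
        rw [Real.exp_add, Real.exp_add, mul_assoc]

end

end Vale.Agent.P042.H188
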