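import Vale.Agent.P042.TT.CoreA

set_option autoImplicit false

/-!
P042, S.7: the level inequality in one cell `c mod L` (rescaled progression), with a part `q2`
of the moduli absorbed in the base modulus of the level inequality (high prime powers).
-/

namespace Vale.Agent.P042.H188

open Finset Vale.Agent.P042.SS Vale.Agent.P042.TT

/-- energy of the cell `c mod L` at denominator `q` -/
noncomputable def cellE (G : ℤ → ℝ) (y : ℤ) (M L : ℕ) (c : ℤ) (q : ℕ) : ℝ :=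
  ∑ a ∈ (range q).filter (Nat.Coprime q),
    ‖∑ n ∈ (Ioc y (y + M)).filter (fun n : ℤ => n ≡ c [ZMOD (L : ℕ)]),
      (G n : ℂ) * e (-((n : ℝ) * ((a : ℝ) / q)))‖ ^ 2

theorem cellE_nonneg (G : ℤ → ℝ) (y : ℤ) (M L : ℕ) (c : ℤ) (q : ℕ) : 0 ≤ cellE G y M L c q :=
  Finset.sum_nonneg fun _ _ => sq_nonneg _

/-- abstract fibre step with absorbed part `q2` -/
theorem coreH (Pr : Finset ℕ) (g : ℕ → ℕ) (L q2 M D m : ℕ) (β Gm : ℝ) (ρ b : ℕ → ℝ)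
    (G : ℤ → ℝ) (y c : ℤ) (Fm : Finset (Finset ℕ)) (Qs : Finset ℕ)
    (hP : ∀ p ∈ Pr, p.Prime) (hL : 1 ≤ L) (hq2 : 1 ≤ q2)
    (hm : 2 ≤ m) (hβ : 0 < β) (hGm : 0 < Gm)
    (hρ0 : ∀ p ∈ Pr, 0 ≤ ρ p) (hb : ∀ p ∈ Pr, 1 ≤ b p)
    (hρ : ∀ p ∈ Pr, 12 * m * ρ p * (1 + b p) ≤ 1)
    (hG0 : ∀ n, 0 ≤ G n) (hG1 : ∀ n, G n ≤ Gm)
    (hFmP : ∀ S ∈ Fm, S ⊆ Pr) (hFmd : ∀ S ∈ Fm, ∀ T, T ⊆ S → T ∈ Fm)
    (hFmD : ∀ S ∈ Fm, ∏ p ∈ S, p ^ g p ≤ D)
    (hM : L * (q2 * D ^ (2 * m + 1) * Fm.card ^ (2 * m)) ≤ M)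
    (hmass : ∀ S ∈ Fm, ∀ z : ℤ, z ≡ c [ZMOD (L : ℕ)] →
      mass G y M (L * (q2 * ∏ p ∈ S, p ^ g p)) z ≤
        β * (∏ p ∈ S, b p) * (M / (L * ((q2 * ∏ p ∈ S, p ^ g p : ℕ) : ℝ))))
    (hQs : ∀ q ∈ Qs, 1 ≤ q ∧ Nat.Coprime L q ∧ goodg Pr g q2 q ∧ Ug q2 q ∈ Fm) :
    ∑ q ∈ Qs, (∏ p ∈ Ug q2 q, ρ p) * cellE G y M L c q ≤
      8 * ((M : ℝ) / L) ^ 2 * β ^ 2 * (1 + (Gm / β) ^ (1 / (m : ℝ))) := by
  classical
  have hLr : (0 : ℝ) < L := by exact_mod_cast hL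
  -- the empty family
  rcases Fm.eq_empty_or_nonempty with hemp | ⟨S1, hS1⟩
  · have hQe : Qs = ∅ := by
      rw [Finset.eq_empty_iff_forall_notMem]
      intro q hq
      have := (hQs q hq).2.2.2
      rw [hemp] at this
      exact Finset.notMem_empty _ this
    rw [hQe, Finset.sum_empty]
    positivity
  have hempty : ∅ ∈ Fm := hFmd S1 hS1 ∅ (Finset.empty_subset _)
  have hD1 : 1 ≤ D := by
    have := hFmD ∅ hempty
    simpa using this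
  have hcard1 : 1 ≤ Fm.card := Finset.card_pos.2 ⟨_, hempty⟩
  have hDD : 1 ≤ q2 * D ^ (2 * m + 1) * Fm.card ^ (2 * m) :=
    Nat.mul_pos (Nat.mul_pos hq2 (by positivity)) (by positivity)
  set N1 : ℕ := M / L + 1 with hN1
  have hN1ge : q2 * D ^ (2 * m + 1) * Fm.card ^ (2 * m) ≤ N1 := by
    rw [hN1]
    have : q2 * D ^ (2 * m + 1) * Fm.card ^ (2 * m) ≤ M / L := by
      rw [Nat.le_div_iff_mul_le hL, mul_comm]
      exact hM
    omega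
  have hML : (M : ℝ) / L ≤ N1 := by
    rw [div_le_iff₀ hLr, hN1]
    have h1 : M < L * (M / L + 1) := Nat.lt_mul_div_succ M hL
    have h2 : (M : ℝ) ≤ ((L * (M / L + 1) : ℕ) : ℝ) := by exact_mod_cast h1.le
    rw [Nat.cast_mul] at h2
    linarith
  have hML1 : (1 : ℝ) ≤ (M : ℝ) / L := by
    rw [le_div_iff₀ hLr, one_mul]
    have : L * 1 ≤ M := (Nat.mul_le_mul_left L hDD).trans hM
    rw [mul_one] at this
    exact_mod_cast this
  have hN12 : (N1 : ℝ) ≤ 2 * ((M : ℝ) / L) := by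
    rw [hN1]
    push_cast
    have h1 : ((M / L : ℕ) : ℝ) ≤ (M : ℝ) / L := Nat.cast_div_le
    linarith
  set G' : ℤ → ℝ := cra_G G y c M L Gm with hG'
  have hn0 := cra_n0_mod y c L
  -- the level inequality
  have hlig := li2_holds Pr g q2 D m N1 (β / Gm) ρ b G' 0 Fm Qs hP hq2 hm
    (by positivity) hρ0 hb hρ
    (by
      intro n
      rw [hG', cra_G]
      split_ifs
      · exact div_nonneg (hG0 _) hGm.le
      · exact le_rfl)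
    (by
      intro n
      rw [hG', cra_G]
      split_ifs
      · rw [div_le_one hGm]; exact hG1 _
      · exact zero_le_one)
    hFmP hFmd hFmD hN1ge
    (by
      intro S hS z
      rw [hG', cra_mass G y c M L _ Gm hL z]
      have hz : cra_n0 y c L + L * z ≡ c [ZMOD (L : ℕ)] := by
        have h5 : cra_n0 y c L + L * z ≡ cra_n0 y c L + 0 [ZMOD (L : ℕ)] :=
          Int.ModEq.add_left _ (Int.modEq_zero_iff_dvd.2 (dvd_mul_right _ _))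
        rw [add_zero] at h5
        exact h5.trans hn0
      have hms := hmass S hS _ hz
      have hpr : (0 : ℝ) < ((q2 * ∏ p ∈ S, p ^ g p : ℕ) : ℝ) := by
        have : 0 < q2 * ∏ p ∈ S, p ^ g p :=
          Nat.mul_pos hq2 (Finset.prod_pos fun p hp => pow_pos (hP p (hFmP S hS hp)).pos _)
        exact_mod_cast this
      have hbr : (0 : ℝ) ≤ ∏ p ∈ S, b p :=
        Finset.prod_nonneg fun p hp => zero_le_one.trans (hb p (hFmP S hS hp))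
      rw [div_le_iff₀ hGm]
      refine hms.trans ?_
      have e1 : (M : ℝ) / (L * ((q2 * ∏ p ∈ S, p ^ g p : ℕ) : ℝ)) =
          ((M : ℝ) / L) / ((q2 * ∏ p ∈ S, p ^ g p : ℕ) : ℝ) := by
        rw [div_div]
      rw [e1]
      have e2 : β / Gm * (∏ p ∈ S, b p) * ((N1 : ℝ) / ((q2 * ∏ p ∈ S, p ^ g p : ℕ) : ℝ)) * Gm =
          β * (∏ p ∈ S, b p) * ((N1 : ℝ) / ((q2 * ∏ p ∈ S, p ^ g p : ℕ) : ℝ)) := by
        field_simp
      rw [e2]
      gcongr)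
    (by
      intro q hq
      obtain ⟨h1, h2, h3, h4⟩ := hQs q hq
      exact ⟨h1, h3, h4⟩)
  -- translate
  have hterm : ∀ q ∈ Qs, (∏ p ∈ Ug q2 q, ρ p) * cellE G y M L c q =
      Gm ^ 2 * ((∏ p ∈ Ug q2 q, ρ p) * enG G' 0 N1 q) := by
    intro q hq
    obtain ⟨h1, h2, h3, h4⟩ := hQs q hq
    unfold cellE
    rw [← cra_perm G' 0 N1 L q h1 h2]
    rw [Finset.sum_congr rfl fun (a : ℕ) _ => cra_F G y c M L Gm hL hGm ((a : ℝ) / q),
      ← Finset.mul_sum]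
    ring
  rw [Finset.sum_congr rfl hterm, ← Finset.mul_sum]
  refine (mul_le_mul_of_nonneg_left hlig (sq_nonneg Gm)).trans ?_
  have hinv : (β / Gm) ^ (-(1 / (m : ℝ))) = (Gm / β) ^ (1 / (m : ℝ)) := by
    rw [Real.rpow_neg (by positivity), ← Real.inv_rpow (by positivity), inv_div]
  rw [hinv]
  have hroot : 0 ≤ (Gm / β) ^ (1 / (m : ℝ)) := Real.rpow_nonneg (by positivity) _
  have e3 : Gm ^ 2 * ((N1 : ℝ) ^ 2 * (2 * (β / Gm) ^ 2 * (1 + (Gm / β) ^ (1 / (m : ℝ))))) =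
      (N1 : ℝ) ^ 2 * (2 * β ^ 2 * (1 + (Gm / β) ^ (1 / (m : ℝ)))) := by
    field_simp
  rw [e3]
  have e4 : (8 : ℝ) * ((M : ℝ) / L) ^ 2 * β ^ 2 * (1 + (Gm / β) ^ (1 / (m : ℝ))) =
      (2 * ((M : ℝ) / L)) ^ 2 * (2 * β ^ 2 * (1 + (Gm / β) ^ (1 / (m : ℝ)))) := by
    ring
  rw [e4]
  have h9 : (N1 : ℝ) ^ 2 ≤ (2 * ((M : ℝ) / L)) ^ 2 := pow_le_pow_left₀ (by positivity) hN12 2
  apply mul_le_mul_of_nonneg_right h9
  positivity

end Vale.Agent.P042.H188
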