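import Vale.Agent.P042.H188.TopCls
import Vale.Agent.P042.H74.Ram4

set_option autoImplicit false

/-!
P042, S.7: splitting of a modulus in the part with high exponents and the rest.
-/

namespace Vale.Agent.P042.H188

open Finset Vale.Agent.P042 Vale.Agent.P042.SS Vale.Agent.P042.TT

/-- the part of `q` with exponents larger than `g` -/
def hi (g : ℕ → ℕ) (q : ℕ) : ℕ :=
  ∏ p ∈ q.primeFactors.filter (fun p => g p < q.factorization p), p ^ q.factorization p

/-- the primes of `q` with exponent at most `g` -/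
def lo (g : ℕ → ℕ) (q : ℕ) : Finset ℕ :=
  q.primeFactors.filter (fun p => q.factorization p ≤ g p)

/-- the span of the low part -/
def spn (g : ℕ → ℕ) (q : ℕ) : ℕ := ∏ p ∈ lo g q, p ^ g p

theorem fact_part {q : ℕ} (S : Finset ℕ) (hS : S ⊆ q.primeFactors) (r : ℕ) :
    (∏ p ∈ S, p ^ q.factorization p).factorization r = if r ∈ S then q.factorization r else 0 := by
  have h0 : ∀ p ∈ S, p ^ q.factorization p ≠ 0 := fun p hp =>
    pow_ne_zero _ (Nat.prime_of_mem_primeFactors (hS hp)).ne_zero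
  rw [Nat.factorization_prod h0, Finsupp.finset_sum_apply]
  have h1 : ∀ p ∈ S, (p ^ q.factorization p).factorization r =
      if p = r then q.factorization r else 0 := by
    intro p hp
    rw [(Nat.prime_of_mem_primeFactors (hS hp)).factorization_pow, Finsupp.single_apply]
    by_cases h : p = r
    · rw [if_pos h, if_pos h, h]
    · rw [if_neg h, if_neg h]
  rw [Finset.sum_congr rfl h1, Finset.sum_ite_eq' S r]

theorem part_pos {q : ℕ} (S : Finset ℕ) (hS : S ⊆ q.primeFactors) :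
    0 < ∏ p ∈ S, p ^ q.factorization p :=
  Finset.prod_pos fun p hp => pow_pos (Nat.prime_of_mem_primeFactors (hS hp)).pos _

theorem hi_pos (g : ℕ → ℕ) (q : ℕ) : 0 < hi g q := part_pos _ (Finset.filter_subset _ _)

theorem lo_sub (g : ℕ → ℕ) (q : ℕ) : lo g q ⊆ q.primeFactors := Finset.filter_subset _ _

theorem lo_eq_not (g : ℕ → ℕ) (q : ℕ) :
    lo g q = q.primeFactors.filter (fun p => ¬ g p < q.factorization p) := by
  unfold lo
  apply Finset.filter_congr
  intro p _
  exact not_lt.symm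

theorem hi_mul {q : ℕ} (g : ℕ → ℕ) (hq : q ≠ 0) :
    hi g q * ∏ p ∈ lo g q, p ^ q.factorization p = q := by
  rw [lo_eq_not]
  unfold hi
  rw [Finset.prod_filter_mul_prod_filter_not]
  exact Nat.prod_factorization_pow_eq_self hq

theorem hi_dvd {q : ℕ} (g : ℕ → ℕ) (hq : q ≠ 0) : hi g q ∣ q := ⟨_, (hi_mul g hq).symm⟩

theorem hi_le {q : ℕ} (g : ℕ → ℕ) (hq : q ≠ 0) : hi g q ≤ q :=
  Nat.le_of_dvd (Nat.pos_of_ne_zero hq) (hi_dvd g hq)

theorem hi_fact (g : ℕ → ℕ) (q r : ℕ) :
    (hi g q).factorization r =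
      if r ∈ q.primeFactors.filter (fun p => g p < q.factorization p) then q.factorization r
      else 0 := fact_part _ (Finset.filter_subset _ _) r

theorem hi_pf (g : ℕ → ℕ) (q : ℕ) :
    (hi g q).primeFactors = q.primeFactors.filter (fun p => g p < q.factorization p) := by
  ext r
  constructor
  · intro hr
    by_contra hcon
    have h1 := hi_fact g q r
    rw [if_neg hcon] at h1
    have h2 : r ∈ (hi g q).factorization.support := by
      rw [Nat.support_factorization]; exact hr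
    exact (Finsupp.mem_support_iff.1 h2) h1
  · intro hr
    have h1 := hi_fact g q r
    rw [if_pos hr] at h1
    rw [← Nat.support_factorization, Finsupp.mem_support_iff, h1]
    rw [Finset.mem_filter] at hr
    omega

theorem kap_split {q : ℕ} (g : ℕ → ℕ) (kw : ℕ → ℕ → ℝ) :
    kapProd kw q = kapProd kw (hi g q) * ∏ p ∈ lo g q, kw p (q.factorization p) := by
  have h1 : kapProd kw (hi g q) =
      ∏ p ∈ q.primeFactors.filter (fun p => g p < q.factorization p),
        kw p (q.factorization p) := by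
    unfold kapProd
    rw [hi_pf]
    refine Finset.prod_congr rfl fun p hp => ?_
    rw [hi_fact, if_pos hp]
  rw [h1, lo_eq_not, Finset.prod_filter_mul_prod_filter_not]
  rfl

theorem Ug_hi {q : ℕ} (g : ℕ → ℕ) : Ug (hi g q) q = lo g q := by
  unfold Ug lo
  apply Finset.filter_congr
  intro p hp
  have hpp := Nat.prime_of_mem_primeFactors hp
  have hv : q.factorization p ≠ 0 := by
    rw [← Nat.support_factorization] at hp
    exact Finsupp.mem_support_iff.1 hp
  rw [hpp.pow_dvd_iff_le_factorization (hi_pos g q).ne', hi_fact]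
  by_cases h : p ∈ q.primeFactors.filter (fun p => g p < q.factorization p)
  · rw [if_pos h]
    rw [Finset.mem_filter] at h
    constructor
    · intro h'; exact absurd le_rfl h'
    · intro h'; omega
  · rw [if_neg h]
    rw [Finset.mem_filter, not_and] at h
    have := h hp
    constructor
    · intro _; omega
    · intro _; omega

theorem good_hi {q : ℕ} (g : ℕ → ℕ) (Pr : Finset ℕ) (h : ∀ p ∈ q.primeFactors, p ∈ Pr) :
    goodg Pr g (hi g q) q := by
  intro p hp
  have hpp := Nat.prime_of_mem_primeFactors hp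
  by_cases h1 : g p < q.factorization p
  · left
    rw [hpp.pow_dvd_iff_le_factorization (hi_pos g q).ne', hi_fact,
      if_pos (Finset.mem_filter.2 ⟨hp, h1⟩)]
  · exact Or.inr ⟨h p hp, not_lt.1 h1⟩

theorem lo_empty {q : ℕ} (g : ℕ → ℕ) (hq : q ≠ 0) (h : lo g q = ∅) : hi g q = q := by
  have := hi_mul g hq
  rw [h, Finset.prod_empty, mul_one] at this
  exact this

theorem spn_pos (g : ℕ → ℕ) (q : ℕ) : 0 < spn g q :=
  Finset.prod_pos fun p hp => pow_pos (Nat.prime_of_mem_primeFactors (lo_sub g q hp)).pos _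

/-- the family of sets of primes of bounded span -/
noncomputable def Fmm (Pr : Finset ℕ) (g : ℕ → ℕ) (X : ℝ) : Finset (Finset ℕ) :=
  Pr.powerset.filter (fun S => ((∏ p ∈ S, p ^ g p : ℕ) : ℝ) ≤ X)

theorem mem_Fmm {Pr : Finset ℕ} {g : ℕ → ℕ} {X : ℝ} {S : Finset ℕ} :
    S ∈ Fmm Pr g X ↔ S ⊆ Pr ∧ ((∏ p ∈ S, p ^ g p : ℕ) : ℝ) ≤ X := by
  unfold Fmm
  rw [Finset.mem_filter, Finset.mem_powerset]

theorem Fmm_down {Pr : Finset ℕ} {g : ℕ → ℕ} {X : ℝ} (hPr : ∀ p ∈ Pr, p.Prime)
    {S T : Finset ℕ} (hS : S ∈ Fmm Pr g X) (hT : T ⊆ S) : T ∈ Fmm Pr g X := by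
  rw [mem_Fmm] at hS ⊢
  refine ⟨hT.trans hS.1, le_trans ?_ hS.2⟩
  have h1 : ∏ p ∈ T, p ^ g p ∣ ∏ p ∈ S, p ^ g p := Finset.prod_dvd_prod_of_subset _ _ _ hT
  have h2 : 0 < ∏ p ∈ S, p ^ g p :=
    Finset.prod_pos fun p hp => pow_pos (hPr p (hS.1 hp)).pos _
  exact_mod_cast Nat.le_of_dvd h2 h1

theorem prime_dvd_span {Pr S : Finset ℕ} {g : ℕ → ℕ} (hPr : ∀ p ∈ Pr, p.Prime)
    (hg : ∀ p ∈ Pr, 1 ≤ g p) (hS : S ⊆ Pr) {r : ℕ} (hr : r.Prime) :
    r ∣ ∏ p ∈ S, p ^ g p ↔ r ∈ S := by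
  constructor
  · intro h
    obtain ⟨p, hp, h1⟩ := (hr.prime.dvd_finset_prod_iff _).1 h
    have h2 := hr.dvd_of_dvd_pow h1
    rw [(Nat.prime_dvd_prime_iff_eq hr (hPr p (hS hp))).1 h2]
    exact hp
  · intro h
    exact (dvd_pow_self r (by have := hg r (hS h); omega)).trans (Finset.dvd_prod_of_mem _ h)

theorem Fmm_card {Pr : Finset ℕ} {g : ℕ → ℕ} {X : ℝ} (hPr : ∀ p ∈ Pr, p.Prime)
    (hg : ∀ p ∈ Pr, 1 ≤ g p) : ((Fmm Pr g X).card : ℝ) ≤ ⌊X⌋₊ := by
  have h1 : (Fmm Pr g X).card ≤ (Icc 1 ⌊X⌋₊).card := by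
    apply Finset.card_le_card_of_injOn (fun S => ∏ p ∈ S, p ^ g p)
    · intro S hS
      rw [Finset.mem_coe, mem_Fmm] at hS
      rw [Finset.mem_coe, Finset.mem_Icc]
      refine ⟨Finset.prod_pos fun p hp => pow_pos (hPr p (hS.1 hp)).pos _, Nat.le_floor hS.2⟩
    · intro S hS T hT hST
      rw [Finset.mem_coe, mem_Fmm] at hS hT
      simp only at hST
      ext r
      constructor
      · intro hr
        have h2 := (prime_dvd_span hPr hg hS.1 (hPr r (hS.1 hr))).2 hr
        rw [hST] at h2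
        exact (prime_dvd_span hPr hg hT.1 (hPr r (hS.1 hr))).1 h2
      · intro hr
        have h2 := (prime_dvd_span hPr hg hT.1 (hPr r (hT.1 hr))).2 hr
        rw [← hST] at h2
        exact (prime_dvd_span hPr hg hS.1 (hPr r (hT.1 hr))).1 h2
  rw [Nat.card_Icc, Nat.add_sub_cancel] at h1
  exact_mod_cast h1

end Vale.Agent.P042.H188
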