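import Vale.Agent.P042.H188.TopHi

set_option autoImplicit false

/-!
P042, S.7: sum over all moduli of one cell from the class inequality.
-/

namespace Vale.Agent.P042.H188

open Finset Vale.Agent.P042 Vale.Agent.P042.SS Vale.Agent.P042.TT

/-- class inequality: moduli with high part `q2` and span at most `X` -/
def Cls (Pr : Finset ℕ) (g : ℕ → ℕ) (MB : ℕ → ℝ → Prop) (En : ℕ → ℝ) (K A Cap : ℝ) : Prop :=
  ∀ (q2 m : ℕ) (X β : ℝ) (b : ℕ → ℝ) (Qs : Finset ℕ), 1 ≤ q2 → 2 ≤ m → 1 ≤ X → 0 < β →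
    (∀ p ∈ Pr, 1 ≤ b p) → (q2 : ℝ) * X ^ (4 * m + 1) ≤ Cap →
    (∀ S ∈ Fmm Pr g X, MB (q2 * ∏ p ∈ S, p ^ g p) (β * ∏ p ∈ S, b p)) →
    (∀ q ∈ Qs, 1 ≤ q ∧ (∀ p ∈ q.primeFactors, p ∈ Pr) ∧ hi g q = q2 ∧ (spn g q : ℝ) ≤ X) →
    ∑ q ∈ Qs, (∏ p ∈ lo g q, (24 * m * b p)⁻¹) * En q ≤
      K * β ^ 2 * (1 + (A / β) ^ (1 / (m : ℝ)))

theorem beta_bd {B t A s : ℝ} {m : ℕ} (hB : 0 < B) (ht : 1 ≤ t) (hA : 0 < A) (hm : 1 ≤ m)
    (hs : 0 ≤ s) (h : Real.log A / m ≤ s) :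
    (B * t) ^ 2 * (1 + (A / (B * t)) ^ (1 / (m : ℝ))) ≤
      2 * t ^ 2 * (B ^ 2 + 1) * Real.exp s := by
  have hm0 : (0 : ℝ) < m := by exact_mod_cast hm
  have ht0 : 0 < t := by linarith
  have hBt : 0 < B * t := mul_pos hB ht0
  set u : ℝ := 1 / (m : ℝ) with hu
  have hu0 : 0 < u := by positivity
  have hu1 : u ≤ 1 := by
    rw [hu, div_le_one hm0]; exact_mod_cast hm
  have hA' : A ^ u ≤ Real.exp s := by
    rw [Real.rpow_def_of_pos hA]
    apply Real.exp_le_exp.2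
    rw [hu, mul_one_div]
    exact h
  have h1 : (A / (B * t)) ^ u = A ^ u * (B * t) ^ (-u) := by
    rw [Real.div_rpow hA.le hBt.le, Real.rpow_neg hBt.le, div_eq_mul_inv]
  have h2 : (B * t) ^ 2 * (B * t) ^ (-u) = B ^ (2 - u) * t ^ (2 - u) := by
    rw [← Real.mul_rpow hB.le ht0.le, ← Real.rpow_natCast (B * t) 2, ← Real.rpow_add hBt]
    norm_num
    ring_nf
  have h4 : B ^ (2 - u) ≤ B ^ 2 + 1 := by
    rcases le_total B 1 with h5 | h5
    · have : B ^ (2 - u) ≤ 1 := Real.rpow_le_one hB.le h5 (by linarith)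
      nlinarith [sq_nonneg B]
    · have : B ^ (2 - u) ≤ B ^ (2 : ℝ) := Real.rpow_le_rpow_of_exponent_le h5 (by linarith)
      rw [Real.rpow_two] at this
      linarith
  have h5 : t ^ (2 - u) ≤ t ^ 2 := by
    have : t ^ (2 - u) ≤ t ^ (2 : ℝ) := Real.rpow_le_rpow_of_exponent_le ht (by linarith)
    rwa [Real.rpow_two] at this
  have he : 1 ≤ Real.exp s := Real.one_le_exp hs
  have hAu0 : 0 ≤ A ^ u := Real.rpow_nonneg hA.le _
  have hB2 : 0 ≤ B ^ 2 + 1 := by positivity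
  have h6 : B ^ (2 - u) * t ^ (2 - u) ≤ (B ^ 2 + 1) * t ^ 2 :=
    mul_le_mul h4 h5 (Real.rpow_nonneg ht0.le _) hB2
  calc (B * t) ^ 2 * (1 + (A / (B * t)) ^ u)
      = (B * t) ^ 2 + A ^ u * ((B * t) ^ 2 * (B * t) ^ (-u)) := by rw [h1]; ring
    _ = B ^ 2 * t ^ 2 + A ^ u * (B ^ (2 - u) * t ^ (2 - u)) := by rw [h2]; ring
    _ ≤ (B ^ 2 + 1) * t ^ 2 * Real.exp s + Real.exp s * ((B ^ 2 + 1) * t ^ 2) := by
        apply add_le_add
        · have h7 : B ^ 2 * t ^ 2 ≤ (B ^ 2 + 1) * t ^ 2 := by nlinarith [sq_nonneg t]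
          have h8 : 0 ≤ (B ^ 2 + 1) * t ^ 2 := by positivity
          nlinarith
        · apply mul_le_mul hA' h6 _ (by positivity)
          exact mul_nonneg (Real.rpow_nonneg hB.le _) (Real.rpow_nonneg ht0.le _)
    _ = 2 * t ^ 2 * (B ^ 2 + 1) * Real.exp s := by ring

variable {Pr : Finset ℕ} {g : ℕ → ℕ} {MB : ℕ → ℝ → Prop} {En : ℕ → ℝ} {K A Cap : ℝ}

/-- the data of the sum over the moduli -/
structure SumH (Pr : Finset ℕ) (g : ℕ → ℕ) (MB : ℕ → ℝ → Prop) (En : ℕ → ℝ) (K A Cap : ℝ)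
    (kw : ℕ → ℕ → ℝ) (M0 J : ℕ) (B τ σ lam0 ε1 ε2 : ℝ) (QQ : Finset ℕ) : Prop where
  prime : ∀ p ∈ Pr, p.Prime
  hg : ∀ p ∈ Pr, 1 ≤ g p
  cls : Cls Pr g MB En K A Cap
  En0 : ∀ q, 0 ≤ En q
  K0 : 0 ≤ K
  kw0 : ∀ p j, 0 ≤ kw p j
  A0 : 0 < A
  J1 : 1 ≤ J
  A1 : Real.log A ≤ 2 ^ J
  B0 : 0 < B
  τ0 : 0 ≤ τ
  lam : 0 < lam0
  σl : 4 ≤ σ * lam0
  e10 : 0 ≤ ε1
  e11 : ε1 ≤ 1
  e20 : 0 ≤ ε2
  e21 : ε2 ≤ 1
  mass : ∀ d : ℕ, 1 ≤ d → (d : ℝ) ≤ M0 * Real.exp (2 ^ (J - 1) * lam0) →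
    (∀ p ∈ d.primeFactors, p ∈ Pr) → MB d (B * (d : ℝ) ^ τ)
  cap : (M0 : ℝ) * Real.exp (5 * 2 ^ J * lam0) ≤ Cap
  hQ : ∀ q ∈ QQ, 1 < q ∧ q ≤ M0 ∧ (∀ p ∈ q.primeFactors, p ∈ Pr) ∧
    (spn g q : ℝ) ≤ Real.exp (2 ^ (J - 1) * lam0)
  h1 : ∀ p ∈ Pr, ∀ v, 1 ≤ v → v ≤ g p →
    kw p v * (24 * 2 ^ J * ((p ^ g p : ℕ) : ℝ) ^ (τ + σ)) ≤ ε1
  h2 : ∑ q2 ∈ (QQ.image (hi g)).erase 1, kapProd kw q2 * (q2 : ℝ) ^ (2 * τ) ≤ ε2

theorem pg_ge_one {p : ℕ} (hp : p.Prime) (j : ℕ) : (1 : ℝ) ≤ ((p ^ j : ℕ) : ℝ) := by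
  exact_mod_cast Nat.one_le_iff_ne_zero.2 (pow_ne_zero _ hp.ne_zero)

variable {kw : ℕ → ℕ → ℝ} {M0 J : ℕ} {B τ σ lam0 ε1 ε2 : ℝ} {QQ : Finset ℕ}

/-- one class -/
theorem SumH.one (H : SumH Pr g MB En K A Cap kw M0 J B τ σ lam0 ε1 ε2 QQ) (i : ℕ) (hi' : i < J)
    (q2 : ℕ) (h1 : 1 ≤ q2) (h2 : q2 ≤ M0) (hpf : ∀ p ∈ q2.primeFactors, p ∈ Pr) (Qs : Finset ℕ)
    (hQs : ∀ q ∈ Qs, 1 ≤ q ∧ (∀ p ∈ q.primeFactors, p ∈ Pr) ∧ hi g q = q2 ∧
      (spn g q : ℝ) ≤ Real.exp (2 ^ i * lam0)) :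
    ∑ q ∈ Qs, (∏ p ∈ lo g q, (24 * ((2 ^ (J - i) : ℕ) : ℝ) * ((p ^ g p : ℕ) : ℝ) ^ τ)⁻¹) * En q ≤
      K * (2 * (q2 : ℝ) ^ (2 * τ) * (B ^ 2 + 1) * Real.exp (2 ^ i)) := by
  have hq2 : (1 : ℝ) ≤ q2 := by exact_mod_cast h1
  have ht : 1 ≤ (q2 : ℝ) ^ τ := Real.one_le_rpow hq2 H.τ0
  have hm : 2 ≤ 2 ^ (J - i) := by
    calc 2 = 2 ^ 1 := (pow_one 2).symm
      _ ≤ 2 ^ (J - i) := Nat.pow_le_pow_right (by norm_num) (by omega)
  have hpow : ((2 ^ (J - i) : ℕ) : ℝ) * 2 ^ i = 2 ^ J := by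
    push_cast
    rw [← pow_add]
    congr 1
    omega
  have h2i : (1 : ℝ) ≤ 2 ^ i := one_le_pow₀ (by norm_num)
  have h2iJ : (2 : ℝ) ^ i ≤ 2 ^ J := pow_le_pow_right₀ (by norm_num) hi'.le
  have h2iJ1 : (2 : ℝ) ^ i ≤ 2 ^ (J - 1) := pow_le_pow_right₀ (by norm_num) (by omega)
  have hX : 1 ≤ Real.exp (2 ^ i * lam0) := Real.one_le_exp (by have := H.lam; positivity)
  have hcls := H.cls q2 (2 ^ (J - i)) (Real.exp (2 ^ i * lam0)) (B * (q2 : ℝ) ^ τ)
    (fun p => ((p ^ g p : ℕ) : ℝ) ^ τ) Qs h1 hm hX (by have := H.B0; positivity)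
    (fun p hp => Real.one_le_rpow (pg_ge_one (H.prime p hp) _) H.τ0)
    (by
      rw [← Real.exp_nat_mul]
      refine le_trans ?_ H.cap
      apply mul_le_mul _ _ (Real.exp_pos _).le (Nat.cast_nonneg _)
      · exact_mod_cast h2
      · apply Real.exp_le_exp.2
        have hm' : ((4 * 2 ^ (J - i) + 1 : ℕ) : ℝ) * (2 ^ i * lam0) =
            (4 * 2 ^ J + 2 ^ i) * lam0 := by
          rw [← hpow]; push_cast; ring
        rw [hm']
        apply mul_le_mul_of_nonneg_right _ H.lam.le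
        linarith)
    (by
      intro S hS
      rw [mem_Fmm] at hS
      have hSpr : ∀ p ∈ S, p.Prime := fun p hp => H.prime p (hS.1 hp)
      have hprod : 0 < ∏ p ∈ S, p ^ g p := Finset.prod_pos fun p hp => pow_pos (hSpr p hp).pos _
      have h3 := H.mass (q2 * ∏ p ∈ S, p ^ g p) (Nat.mul_pos h1 hprod)
        (by
          rw [Nat.cast_mul]
          apply mul_le_mul _ _ (Nat.cast_nonneg _) (Nat.cast_nonneg _)
          · exact_mod_cast h2
          · refine hS.2.trans (Real.exp_le_exp.2 ?_)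
            exact mul_le_mul_of_nonneg_right h2iJ1 H.lam.le)
        (by
          intro r hr
          have hrp := Nat.prime_of_mem_primeFactors hr
          rcases (hrp.dvd_mul).1 (Nat.dvd_of_mem_primeFactors hr) with h4 | h4
          · exact hpf r (Nat.mem_primeFactors.2 ⟨hrp, h4, by omega⟩)
          · exact hS.1 ((prime_dvd_span H.prime H.hg hS.1 hrp).1 h4))
      have h4 : ((q2 * ∏ p ∈ S, p ^ g p : ℕ) : ℝ) ^ τ =
          (q2 : ℝ) ^ τ * ∏ p ∈ S, ((p ^ g p : ℕ) : ℝ) ^ τ := by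
        rw [Nat.cast_mul, Real.mul_rpow (Nat.cast_nonneg _) (Nat.cast_nonneg _), Nat.cast_prod,
          Real.finsetProd_rpow _ _ (fun p _ => Nat.cast_nonneg _)]
      rw [h4, ← mul_assoc] at h3
      exact h3)
    hQs
  refine hcls.trans ?_
  rw [mul_assoc]
  apply mul_le_mul_of_nonneg_left _ H.K0
  have h5 := beta_bd (m := 2 ^ (J - i)) H.B0 ht H.A0 (by omega) (by positivity : (0 : ℝ) ≤ 2 ^ i)
    (by
      rw [div_le_iff₀ (by positivity), mul_comm, hpow]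
      exact H.A1)
  have h6 : ((q2 : ℝ) ^ τ) ^ 2 = (q2 : ℝ) ^ (2 * τ) := by
    rw [← Real.rpow_natCast, ← Real.rpow_mul (by positivity)]
    congr 1
    push_cast
    ring
  rw [h6] at h5
  exact h5

/-- the weight of one modulus -/
theorem SumH.wt (H : SumH Pr g MB En K A Cap kw M0 J B τ σ lam0 ε1 ε2 QQ) (i : ℕ) (hi' : i < J)
    (q : ℕ) (hpf : ∀ p ∈ q.primeFactors, p ∈ Pr) (hne : (lo g q).Nonempty) :
    kapProd kw q ≤ kapProd kw (hi g q) *
      (ε1 * ((spn g q : ℕ) : ℝ) ^ (-σ) *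
        ∏ p ∈ lo g q, (24 * ((2 ^ (J - i) : ℕ) : ℝ) * ((p ^ g p : ℕ) : ℝ) ^ τ)⁻¹) := by
  rw [kap_split g kw]
  have hk0 : 0 ≤ kapProd kw (hi g q) := Finset.prod_nonneg fun p _ => H.kw0 _ _
  apply mul_le_mul_of_nonneg_left _ hk0
  have h1 : ∀ p ∈ lo g q, kw p (q.factorization p) ≤
      ε1 * ((p ^ g p : ℕ) : ℝ) ^ (-σ) *
        (24 * ((2 ^ (J - i) : ℕ) : ℝ) * ((p ^ g p : ℕ) : ℝ) ^ τ)⁻¹ := by
    intro p hp
    have hp1 : p ∈ q.primeFactors := lo_sub g q hp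
    have hpp := hpf p hp1
    have hpr := H.prime p hpp
    have hv : 1 ≤ q.factorization p := by
      rw [← Nat.support_factorization] at hp1
      exact Nat.one_le_iff_ne_zero.2 (Finsupp.mem_support_iff.1 hp1)
    have hv2 : q.factorization p ≤ g p := (Finset.mem_filter.1 hp).2
    have h2 := H.h1 p hpp _ hv hv2
    have hx : (0 : ℝ) < ((p ^ g p : ℕ) : ℝ) := lt_of_lt_of_le one_pos (pg_ge_one hpr _)
    set x : ℝ := ((p ^ g p : ℕ) : ℝ) with hxdef
    have h3 : x ^ (τ + σ) = x ^ τ * x ^ σ := Real.rpow_add hx _ _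
    have hxτ : 0 < x ^ τ := Real.rpow_pos_of_pos hx _
    have hxσ : 0 < x ^ σ := Real.rpow_pos_of_pos hx _
    have hmm : ((2 ^ (J - i) : ℕ) : ℝ) ≤ 2 ^ J := by
      push_cast
      exact pow_le_pow_right₀ (by norm_num) (by omega)
    have hmpos : (0 : ℝ) < ((2 ^ (J - i) : ℕ) : ℝ) := by positivity
    rw [Real.rpow_neg hx.le]
    rw [← div_eq_mul_inv, ← div_eq_mul_inv, div_div, le_div_iff₀ (by positivity)]
    refine le_trans ?_ h2
    apply mul_le_mul_of_nonneg_left _ (H.kw0 _ _)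
    rw [h3]
    calc x ^ σ * (24 * ((2 ^ (J - i) : ℕ) : ℝ) * x ^ τ)
        ≤ x ^ σ * (24 * 2 ^ J * x ^ τ) := by gcongr
      _ = 24 * 2 ^ J * (x ^ τ * x ^ σ) := by ring
  calc ∏ p ∈ lo g q, kw p (q.factorization p)
      ≤ ∏ p ∈ lo g q, (ε1 * ((p ^ g p : ℕ) : ℝ) ^ (-σ) *
        (24 * ((2 ^ (J - i) : ℕ) : ℝ) * ((p ^ g p : ℕ) : ℝ) ^ τ)⁻¹) :=
        Finset.prod_le_prod (fun p _ => H.kw0 _ _) h1
    _ = ε1 ^ (lo g q).card * ((spn g q : ℕ) : ℝ) ^ (-σ) *
        ∏ p ∈ lo g q, (24 * ((2 ^ (J - i) : ℕ) : ℝ) * ((p ^ g p : ℕ) : ℝ) ^ τ)⁻¹ := by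
        rw [Finset.prod_mul_distrib, Finset.prod_mul_distrib, Finset.prod_const]
        congr 2
        unfold spn
        rw [Nat.cast_prod, Real.finsetProd_rpow _ _ (fun p _ => Nat.cast_nonneg _)]
    _ ≤ _ := by
        apply mul_le_mul_of_nonneg_right
        · apply mul_le_mul_of_nonneg_right
          · calc ε1 ^ (lo g q).card ≤ ε1 ^ 1 :=
                pow_le_pow_of_le_one H.e10 H.e11 (Finset.card_pos.2 hne)
              _ = ε1 := pow_one _
          · exact Real.rpow_nonneg (Nat.cast_nonneg _) _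
        · apply Finset.prod_nonneg
          intro p _
          apply inv_nonneg.2
          have := Real.rpow_nonneg (Nat.cast_nonneg (p ^ g p)) τ
          positivity

/-- weight of the class `i` -/
noncomputable def wcl (i : ℕ) : ℝ := if i = 0 then 1 else Real.exp (-(2 * 2 ^ i))

theorem sum_wcl (J : ℕ) (hJ : 1 ≤ J) :
    ∑ i ∈ range J, wcl i * Real.exp (2 ^ i) ≤ 4 - (1 / 2) ^ (J - 1) := by
  induction J, hJ using Nat.le_induction with
  | base =>
    rw [Finset.sum_range_one]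
    unfold wcl
    rw [if_pos rfl]
    have := Real.exp_one_lt_d9
    norm_num
    linarith
  | succ J hJ ih =>
    rw [Finset.sum_range_succ]
    have h0 : J ≠ 0 := by omega
    have h1 : wcl J * Real.exp (2 ^ J) ≤ (1 / 2) ^ J := by
      unfold wcl
      rw [if_neg h0, ← Real.exp_add]
      have h2 : -(2 * 2 ^ J) + 2 ^ J = -((2 : ℝ) ^ J) := by ring
      rw [h2, Real.exp_neg, one_div, inv_pow]
      apply inv_anti₀ (by positivity)
      have := Real.add_one_le_exp ((2 : ℝ) ^ J)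
      linarith
    have h3 : (1 / 2 : ℝ) ^ (J - 1) = 2 * (1 / 2) ^ J := by
      obtain ⟨j, rfl⟩ : ∃ j, J = j + 1 := ⟨J - 1, by omega⟩
      rw [Nat.add_sub_cancel, pow_succ]
      ring
    rw [Nat.add_sub_cancel]
    linarith

/-- sum over all the moduli -/
theorem SumH.total (H : SumH Pr g MB En K A Cap kw M0 J B τ σ lam0 ε1 ε2 QQ) :
    ∑ q ∈ QQ, kapProd kw q * En q ≤ 16 * (ε1 + ε2) * K * (B ^ 2 + 1) := by
  classical
  have hkn : ∀ q, 0 ≤ kapProd kw q := fun q => Finset.prod_nonneg fun p _ => H.kw0 _ _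
  have hB2 : 0 ≤ B ^ 2 + 1 := by positivity
  have hK := H.K0
  have hJ := H.J1
  have hhiM : ∀ q ∈ QQ, hi g q ≤ M0 := fun q hq =>
    (hi_le g (by have := (H.hQ q hq).1; omega)).trans (H.hQ q hq).2.1
  have hhiP : ∀ q ∈ QQ, ∀ p ∈ (hi g q).primeFactors, p ∈ Pr := by
    intro q hq p hp
    rw [hi_pf] at hp
    exact (H.hQ q hq).2.2.1 p (Finset.mem_filter.1 hp).1
  have he1 : Real.exp 1 ≤ 3 := by have := Real.exp_one_lt_d9; linarith
  -- the part without low primes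
  have hA : ∑ q ∈ QQ.filter (fun q => lo g q = ∅), kapProd kw q * En q ≤
      6 * ε2 * K * (B ^ 2 + 1) := by
    have h1 : ∀ q ∈ QQ.filter (fun q => lo g q = ∅), kapProd kw q * En q ≤
        6 * K * (B ^ 2 + 1) * (kapProd kw q * (q : ℝ) ^ (2 * τ)) := by
      intro q hq
      rw [Finset.mem_filter] at hq
      obtain ⟨hq1, hq2, hq3, hq4⟩ := H.hQ q hq.1
      have hh := lo_empty g (by omega) hq.2
      have h2 := H.one 0 (by omega) q (by omega) hq2 hq3 {q}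
        (by
          intro r hr
          rw [Finset.mem_singleton] at hr
          subst hr
          refine ⟨by omega, hq3, hh, ?_⟩
          unfold spn
          rw [hq.2, Finset.prod_empty]
          have := H.lam
          push_cast
          exact Real.one_le_exp (by positivity))
      rw [Finset.sum_singleton, hq.2, Finset.prod_empty, one_mul, pow_zero] at h2
      have hq0 : 0 ≤ (q : ℝ) ^ (2 * τ) := Real.rpow_nonneg (Nat.cast_nonneg _) _
      calc kapProd kw q * En q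
          ≤ kapProd kw q * (K * (2 * (q : ℝ) ^ (2 * τ) * (B ^ 2 + 1) * Real.exp 1)) :=
            mul_le_mul_of_nonneg_left h2 (hkn q)
        _ ≤ kapProd kw q * (K * (2 * (q : ℝ) ^ (2 * τ) * (B ^ 2 + 1) * 3)) := by
            have := hkn q
            gcongr
        _ = 6 * K * (B ^ 2 + 1) * (kapProd kw q * (q : ℝ) ^ (2 * τ)) := by ring
    refine (Finset.sum_le_sum h1).trans ?_
    rw [← Finset.mul_sum]
    have h3 : ∑ q ∈ QQ.filter (fun q => lo g q = ∅), kapProd kw q * (q : ℝ) ^ (2 * τ) ≤ ε2 := by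
      refine le_trans ?_ H.h2
      apply Finset.sum_le_sum_of_subset_of_nonneg
      · intro q hq
        rw [Finset.mem_filter] at hq
        have hq1 := (H.hQ q hq.1).1
        rw [Finset.mem_erase]
        exact ⟨by omega, Finset.mem_image.2 ⟨q, hq.1, lo_empty g (by omega) hq.2⟩⟩
      · intro q _ _
        exact mul_nonneg (hkn q) (Real.rpow_nonneg (Nat.cast_nonneg _) _)
    calc 6 * K * (B ^ 2 + 1) *
          ∑ q ∈ QQ.filter (fun q => lo g q = ∅), kapProd kw q * (q : ℝ) ^ (2 * τ)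
        ≤ 6 * K * (B ^ 2 + 1) * ε2 := by gcongr
      _ = 6 * ε2 * K * (B ^ 2 + 1) := by ring
  -- the sum over the high parts
  have hS : ∑ q2 ∈ QQ.image (hi g), kapProd kw q2 * (q2 : ℝ) ^ (2 * τ) ≤ 2 := by
    have h1 : ∑ q2 ∈ QQ.image (hi g), kapProd kw q2 * (q2 : ℝ) ^ (2 * τ) ≤
        ∑ q2 ∈ insert 1 ((QQ.image (hi g)).erase 1), kapProd kw q2 * (q2 : ℝ) ^ (2 * τ) := by
      apply Finset.sum_le_sum_of_subset_of_nonneg
      · intro q hq
        rw [Finset.mem_insert, Finset.mem_erase]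
        by_cases h : q = 1
        · exact Or.inl h
        · exact Or.inr ⟨h, hq⟩
      · intro q _ _
        exact mul_nonneg (hkn q) (Real.rpow_nonneg (Nat.cast_nonneg _) _)
    rw [Finset.sum_insert (Finset.notMem_erase _ _)] at h1
    have h2 : kapProd kw 1 * ((1 : ℕ) : ℝ) ^ (2 * τ) = 1 := by
      unfold kapProd
      simp
    rw [h2] at h1
    have := H.h2
    have := H.e21
    linarith
  -- the classes
  set QQ1 := QQ.filter (fun q => lo g q ≠ ∅) with hQQ1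
  set Ci : ℕ → Finset ℕ := fun i => QQ1.filter (fun q =>
    (spn g q : ℝ) ≤ Real.exp (2 ^ i * lam0) ∧
      (i = 0 ∨ Real.exp (2 ^ (i - 1) * lam0) < (spn g q : ℝ))) with hCi
  have hcov : ∀ q ∈ QQ1, ∃ i ∈ range J, q ∈ Ci i := by
    intro q hq
    have hq' := Finset.mem_filter.1 hq
    have hex : ∃ i, (spn g q : ℝ) ≤ Real.exp (2 ^ i * lam0) := ⟨J - 1, (H.hQ q hq'.1).2.2.2⟩
    classical
    refine ⟨Nat.find hex, ?_, ?_⟩
    · rw [Finset.mem_range]
      have := Nat.find_min' hex (H.hQ q hq'.1).2.2.2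
      omega
    · rw [hCi, Finset.mem_filter]
      refine ⟨hq, Nat.find_spec hex, ?_⟩
      by_cases h0 : Nat.find hex = 0
      · exact Or.inl h0
      · right
        have := Nat.find_min hex (show Nat.find hex - 1 < Nat.find hex by omega)
        exact not_le.1 this
  have hclass : ∀ i ∈ range J, ∑ q ∈ Ci i, kapProd kw q * En q ≤
      4 * ε1 * K * (B ^ 2 + 1) * (wcl i * Real.exp (2 ^ i)) := by
    intro i hi'
    rw [Finset.mem_range] at hi'
    have hmaps : ∀ q ∈ Ci i, hi g q ∈ QQ.image (hi g) := fun q hq =>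
      Finset.mem_image_of_mem _ (Finset.mem_filter.1 (Finset.mem_filter.1 hq).1).1
    rw [← Finset.sum_fiberwise_of_maps_to hmaps]
    have hw0 : 0 ≤ wcl i := by
      unfold wcl
      split_ifs
      · exact zero_le_one
      · exact (Real.exp_pos _).le
    have h1 : ∀ q2 ∈ QQ.image (hi g),
        ∑ q ∈ (Ci i).filter (fun q => hi g q = q2), kapProd kw q * En q ≤
          2 * ε1 * K * (B ^ 2 + 1) * (wcl i * Real.exp (2 ^ i)) *
            (kapProd kw q2 * (q2 : ℝ) ^ (2 * τ)) := by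
      intro q2 hq2
      obtain ⟨q0, hq0, hq02⟩ := Finset.mem_image.1 hq2
      have hq2pos : 1 ≤ q2 := by rw [← hq02]; exact hi_pos g q0
      have hq2M : q2 ≤ M0 := by rw [← hq02]; exact hhiM q0 hq0
      have hq2P : ∀ p ∈ q2.primeFactors, p ∈ Pr := by rw [← hq02]; exact hhiP q0 hq0
      have h2 := H.one i hi' q2 hq2pos hq2M hq2P ((Ci i).filter (fun q => hi g q = q2))
        (by
          intro q hq
          rw [Finset.mem_filter] at hq
          have h3 := Finset.mem_filter.1 hq.1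
          have h4 := Finset.mem_filter.1 h3.1
          have h5 := H.hQ q h4.1
          exact ⟨by omega, h5.2.2.1, hq.2, h3.2.1⟩)
      have h3 : ∀ q ∈ (Ci i).filter (fun q => hi g q = q2), kapProd kw q * En q ≤
          kapProd kw q2 * (ε1 * wcl i) *
            ((∏ p ∈ lo g q, (24 * ((2 ^ (J - i) : ℕ) : ℝ) * ((p ^ g p : ℕ) : ℝ) ^ τ)⁻¹) *
              En q) := by
        intro q hq
        rw [Finset.mem_filter] at hq
        have h4 := Finset.mem_filter.1 hq.1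
        have h5 := Finset.mem_filter.1 h4.1
        have h6 := H.wt i hi' q (H.hQ q h5.1).2.2.1 (Finset.nonempty_iff_ne_empty.2 h5.2)
        rw [hq.2] at h6
        have hsp : (1 : ℝ) ≤ ((spn g q : ℕ) : ℝ) := by exact_mod_cast spn_pos g q
        have hσ : 0 ≤ σ := by
          by_contra hcon
          have : σ * lam0 < 0 := mul_neg_of_neg_of_pos (not_le.1 hcon) H.lam
          have := H.σl
          linarith
        have h7 : ((spn g q : ℕ) : ℝ) ^ (-σ) ≤ wcl i := by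
          unfold wcl
          split_ifs with h0
          · exact Real.rpow_le_one_of_one_le_of_nonpos hsp (by linarith)
          · have h8 := h4.2.2.resolve_left h0
            have h9 : ((spn g q : ℕ) : ℝ) ^ (-σ) ≤ (Real.exp (2 ^ (i - 1) * lam0)) ^ (-σ) :=
              Real.rpow_le_rpow_of_nonpos (Real.exp_pos _) h8.le (by linarith)
            refine h9.trans ?_
            rw [← Real.exp_mul]
            apply Real.exp_le_exp.2
            have h10 : (2 : ℝ) ^ i = 2 * 2 ^ (i - 1) := by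
              obtain ⟨j, rfl⟩ : ∃ j, i = j + 1 := ⟨i - 1, by omega⟩
              rw [Nat.add_sub_cancel, pow_succ]
              ring
            rw [h10]
            have h11 : (0 : ℝ) < 2 ^ (i - 1) := by positivity
            have := H.σl
            nlinarith
        have hprod : 0 ≤ ∏ p ∈ lo g q,
            (24 * ((2 ^ (J - i) : ℕ) : ℝ) * ((p ^ g p : ℕ) : ℝ) ^ τ)⁻¹ := by
          apply Finset.prod_nonneg
          intro p _
          apply inv_nonneg.2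
          have := Real.rpow_nonneg (Nat.cast_nonneg (p ^ g p)) τ
          positivity
        have h8 : kapProd kw q ≤ kapProd kw q2 * (ε1 * wcl i *
            ∏ p ∈ lo g q, (24 * ((2 ^ (J - i) : ℕ) : ℝ) * ((p ^ g p : ℕ) : ℝ) ^ τ)⁻¹) := by
          refine h6.trans ?_
          apply mul_le_mul_of_nonneg_left _ (hkn q2)
          apply mul_le_mul_of_nonneg_right _ hprod
          exact mul_le_mul_of_nonneg_left h7 H.e10
        calc kapProd kw q * En q
            ≤ (kapProd kw q2 * (ε1 * wcl i *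
              ∏ p ∈ lo g q, (24 * ((2 ^ (J - i) : ℕ) : ℝ) * ((p ^ g p : ℕ) : ℝ) ^ τ)⁻¹)) * En q :=
              mul_le_mul_of_nonneg_right h8 (H.En0 q)
          _ = _ := by ring
      refine (Finset.sum_le_sum h3).trans ?_
      rw [← Finset.mul_sum]
      have h4 : 0 ≤ kapProd kw q2 * (ε1 * wcl i) :=
        mul_nonneg (hkn q2) (mul_nonneg H.e10 hw0)
      refine (mul_le_mul_of_nonneg_left h2 h4).trans (le_of_eq ?_)
      ring
    refine (Finset.sum_le_sum h1).trans ?_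
    rw [← Finset.mul_sum]
    have h5 : 0 ≤ 2 * ε1 * K * (B ^ 2 + 1) * (wcl i * Real.exp (2 ^ i)) := by
      have := H.e10
      have := (Real.exp_pos ((2 : ℝ) ^ i)).le
      positivity
    refine (mul_le_mul_of_nonneg_left hS h5).trans (le_of_eq ?_)
    ring
  have hB : ∑ q ∈ QQ1, kapProd kw q * En q ≤ 16 * ε1 * K * (B ^ 2 + 1) := by
    have h1 : ∑ q ∈ QQ1, kapProd kw q * En q ≤
        ∑ i ∈ range J, ∑ q ∈ Ci i, kapProd kw q * En q := by
      have h2 : ∀ q ∈ QQ1, kapProd kw q * En q ≤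
          ∑ i ∈ range J, if q ∈ Ci i then kapProd kw q * En q else 0 := by
        intro q hq
        obtain ⟨i, hi', hqi⟩ := hcov q hq
        have h3 : (if q ∈ Ci i then kapProd kw q * En q else 0) ≤
            ∑ i ∈ range J, if q ∈ Ci i then kapProd kw q * En q else 0 := by
          apply Finset.single_le_sum (f := fun i => if q ∈ Ci i then kapProd kw q * En q else 0)
          · intro j _
            split_ifs
            · exact mul_nonneg (hkn q) (H.En0 q)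
            · exact le_rfl
          · exact hi'
        rw [if_pos hqi] at h3
        exact h3
      refine (Finset.sum_le_sum h2).trans (le_of_eq ?_)
      rw [Finset.sum_comm]
      refine Finset.sum_congr rfl fun i _ => ?_
      rw [← Finset.sum_filter]
      congr 1
      ext q
      rw [Finset.mem_filter]
      constructor
      · intro h; exact h.2
      · intro h; exact ⟨(Finset.mem_filter.1 h).1, h⟩
    refine h1.trans ((Finset.sum_le_sum hclass).trans ?_)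
    rw [← Finset.mul_sum]
    have h2 := sum_wcl J hJ
    have h3 : (0 : ℝ) ≤ (1 / 2) ^ (J - 1) := by positivity
    have h4 : 0 ≤ 4 * ε1 * K * (B ^ 2 + 1) := by
      have := H.e10
      positivity
    calc 4 * ε1 * K * (B ^ 2 + 1) * ∑ i ∈ range J, wcl i * Real.exp (2 ^ i)
        ≤ 4 * ε1 * K * (B ^ 2 + 1) * 4 := mul_le_mul_of_nonneg_left (by linarith) h4
      _ = 16 * ε1 * K * (B ^ 2 + 1) := by ring
  rw [← Finset.sum_filter_add_sum_filter_not QQ (fun q => lo g q = ∅)]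
  have h5 : ∑ q ∈ QQ.filter (fun q => ¬ lo g q = ∅), kapProd kw q * En q ≤
      16 * ε1 * K * (B ^ 2 + 1) := hB
  have h6 : 6 * ε2 * K * (B ^ 2 + 1) ≤ 16 * ε2 * K * (B ^ 2 + 1) := by
    have := H.e20
    have h7 : 0 ≤ ε2 * K * (B ^ 2 + 1) := by positivity
    nlinarith
  calc _ ≤ 6 * ε2 * K * (B ^ 2 + 1) + 16 * ε1 * K * (B ^ 2 + 1) := add_le_add hA h5
    _ ≤ 16 * ε2 * K * (B ^ 2 + 1) + 16 * ε1 * K * (B ^ 2 + 1) := by linarith
    _ = 16 * (ε1 + ε2) * K * (B ^ 2 + 1) := by ring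

end Vale.Agent.P042.H188
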