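import Vale.Agent.P042.H188.TopSum
import Vale.Agent.P042.H188.HiSum
import Vale.Agent.P042.H527.LI3

set_option autoImplicit false

/-!
P042, S.7: the sum over all moduli for a weight on the full window (majorant form) and for a cell.
-/

namespace Vale.Agent.P042.H188

open Finset Vale.Agent.P042 Vale.Agent.P042.SS Vale.Agent.P042.TT Vale.Agent.P042.H527

theorem rho_cond {m : ℕ} (hm : 2 ≤ m) {b : ℝ} (hb : 1 ≤ b) :
    12 * m * (24 * m * b)⁻¹ * (1 + b) ≤ 1 := by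
  have hm0 : (0 : ℝ) < m := by exact_mod_cast (by omega : 0 < m)
  have h1 : (12 : ℝ) * m * (24 * m * b)⁻¹ * (1 + b) = (1 + b) / (2 * b) := by
    field_simp
    norm_num
  rw [h1, div_le_one (by linarith)]
  linarith

theorem pow_bound {q2 D n : ℕ} {X Cap : ℝ} {m : ℕ} (hX : 1 ≤ X) (hD : (D : ℝ) ≤ X)
    (hn : (n : ℝ) ≤ X) (hc : (q2 : ℝ) * X ^ (4 * m + 1) ≤ Cap) :
    ((q2 * D ^ (2 * m + 1) * n ^ (2 * m) : ℕ) : ℝ) ≤ Cap := by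
  refine le_trans ?_ hc
  push_cast
  rw [mul_assoc]
  apply mul_le_mul_of_nonneg_left _ (Nat.cast_nonneg _)
  calc (D : ℝ) ^ (2 * m + 1) * (n : ℝ) ^ (2 * m)
      ≤ X ^ (2 * m + 1) * X ^ (2 * m) :=
        mul_le_mul (pow_le_pow_left₀ (Nat.cast_nonneg _) hD _)
          (pow_le_pow_left₀ (Nat.cast_nonneg _) hn _) (by positivity) (by positivity)
    _ = X ^ (4 * m + 1) := by rw [← pow_add]; congr 1; omega

theorem pf_mul_span {Pr : Finset ℕ} {g : ℕ → ℕ} (hPr : ∀ p ∈ Pr, p.Prime)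
    (hg : ∀ p ∈ Pr, 1 ≤ g p) {q2 : ℕ} (h1 : 1 ≤ q2) (hq2 : ∀ p ∈ q2.primeFactors, p ∈ Pr)
    {S : Finset ℕ} (hS : S ⊆ Pr) : ∀ p ∈ (q2 * ∏ p ∈ S, p ^ g p).primeFactors, p ∈ Pr := by
  intro r hr
  have hrp := Nat.prime_of_mem_primeFactors hr
  rcases (hrp.dvd_mul).1 (Nat.dvd_of_mem_primeFactors hr) with h4 | h4
  · exact hq2 r (Nat.mem_primeFactors.2 ⟨hrp, h4, by omega⟩)
  · exact hS ((prime_dvd_span hPr hg hS hrp).1 h4)

/-- the class inequality for a weight with an equidistributed majorant -/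
theorem cls_wt (Pr : Finset ℕ) (g : ℕ → ℕ) (M : ℕ) (y : ℤ) (G ν : ℤ → ℝ) (A E Cap : ℝ)
    (hPr : ∀ p ∈ Pr, p.Prime) (hg : ∀ p ∈ Pr, 1 ≤ g p) (hG0 : ∀ n, 0 ≤ G n)
    (hG1 : ∀ n, G n ≤ A * ν n) (hA : 0 < A) (hM : 1 ≤ M) (hE : 0 ≤ E)
    (hν : ∀ d : ℕ, 1 ≤ d → (d : ℝ) ≤ Cap → (∀ p ∈ d.primeFactors, p ∈ Pr) → ∀ x : ℤ,
      |mass ν y M d x - M / (d : ℝ)| ≤ E)
    (hcap : E * Cap ≤ M) :
    Cls Pr g (fun d r => ∀ x : ℤ, mass G y M d x ≤ r * (M / (d : ℝ))) (enG G y M)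
      (2 * (M : ℝ) ^ 2) A Cap := by
  intro q2 m X β b Qs hq2 hm hX hβ hb hc hMB hQs
  rcases Qs.eq_empty_or_nonempty with hemp | ⟨q0, hq0⟩
  · rw [hemp, Finset.sum_empty]
    positivity
  have hq2P : ∀ p ∈ q2.primeFactors, p ∈ Pr := by
    obtain ⟨_, h2, h3, _⟩ := hQs q0 hq0
    intro p hp
    rw [← h3, hi_pf] at hp
    exact h2 p (Finset.mem_filter.1 hp).1
  have hD : ((⌊X⌋₊ : ℕ) : ℝ) ≤ X := Nat.floor_le (by linarith)
  have hD1 : 1 ≤ ⌊X⌋₊ := Nat.le_floor (by exact_mod_cast hX)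
  have hcard : ((Fmm Pr g X).card : ℝ) ≤ X := (Fmm_card hPr hg).trans hD
  have hpb := pow_bound (q2 := q2) (m := m) hX hD hcard hc
  have h := li3 Pr g q2 ⌊X⌋₊ m M β A E (fun p => (24 * m * b p)⁻¹) b G ν y (Fmm Pr g X) Qs
    hPr hq2 hm hβ hA
    (fun p hp => by
      have := hb p hp
      positivity) hb
    (fun p hp => rho_cond hm (hb p hp)) hG0 hG1
    (fun S hS T hT => Fmm_down hPr hS hT)
    (fun S hS => Nat.le_floor (mem_Fmm.1 hS).2) hM hE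
    (by
      intro S hS hle x
      have hpos : 0 < ∏ p ∈ S, p ^ g p := Finset.prod_pos fun p hp => pow_pos (hPr p (hS hp)).pos _
      refine hν (q2 * ∏ p ∈ S, p ^ g p) (Nat.mul_pos hq2 hpos) ?_
        (pf_mul_span hPr hg hq2 hq2P hS) x
      have h1 : ((q2 * ∏ p ∈ S, p ^ g p : ℕ) : ℝ) ≤ ((q2 * ⌊X⌋₊ ^ (2 * m + 1) : ℕ) : ℝ) := by
        exact_mod_cast hle
      refine h1.trans (le_trans ?_ hc)
      push_cast
      apply mul_le_mul_of_nonneg_left _ (Nat.cast_nonneg _)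
      calc ((⌊X⌋₊ : ℕ) : ℝ) ^ (2 * m + 1) ≤ X ^ (2 * m + 1) :=
            pow_le_pow_left₀ (Nat.cast_nonneg _) hD _
        _ ≤ X ^ (4 * m + 1) := pow_le_pow_right₀ hX (by omega))
    (by
      refine le_trans ?_ hcap
      apply mul_le_mul_of_nonneg_left _ hE
      push_cast at hpb
      exact hpb)
    hMB
    (by
      intro q hq
      obtain ⟨h1, h2, h3, h4⟩ := hQs q hq
      refine ⟨h1, ?_, ?_⟩
      · rw [← h3]; exact good_hi g Pr h2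
      · rw [← h3, Ug_hi, mem_Fmm]
        exact ⟨fun p hp => h2 p (lo_sub g q hp), h4⟩)
  have h5 : ∀ q ∈ Qs, (∏ p ∈ lo g q, (24 * m * b p)⁻¹) * enG G y M q =
      (∏ p ∈ Ug q2 q, (24 * m * b p)⁻¹) * enG G y M q := by
    intro q hq
    rw [← (hQs q hq).2.2.1, Ug_hi]
  rw [Finset.sum_congr rfl h5]
  refine h.trans (le_of_eq ?_)
  ring

/-- **sum over all moduli for a weight on the full window**, scale `X0` -/
theorem top_wt (Pr : Finset ℕ) (g : ℕ → ℕ) (M M0 J : ℕ) (y : ℤ) (G ν : ℤ → ℝ) (kw : ℕ → ℕ → ℝ)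
    (A B E X0 τ σ lam0 ε1 ε2 : ℝ) (QQ : Finset ℕ)
    (hPr : ∀ p ∈ Pr, p.Prime) (hg : ∀ p ∈ Pr, 1 ≤ g p) (hkw : ∀ p j, 0 ≤ kw p j)
    (hG0 : ∀ n, 0 ≤ G n) (hG1 : ∀ n, G n ≤ A * ν n) (hA : 0 < A) (hM : 1 ≤ M) (hE : 0 ≤ E)
    (hX0 : 0 < X0) (hJ : 1 ≤ J) (hAJ : Real.log (A * (M / X0)) ≤ 2 ^ J) (hB : 0 ≤ B)
    (hτ : 0 ≤ τ) (hlam : 0 < lam0) (hσ : 4 ≤ σ * lam0) (h10 : 0 ≤ ε1) (h11 : ε1 ≤ 1)
    (h20 : 0 ≤ ε2) (h21 : ε2 ≤ 1)
    (hν : ∀ d : ℕ, 1 ≤ d → (d : ℝ) ≤ M0 * Real.exp (5 * 2 ^ J * lam0) →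
      (∀ p ∈ d.primeFactors, p ∈ Pr) → ∀ x : ℤ, |mass ν y M d x - M / (d : ℝ)| ≤ E)
    (hcap : E * (M0 * Real.exp (5 * 2 ^ J * lam0)) ≤ M)
    (hmass : ∀ d : ℕ, 1 ≤ d → (d : ℝ) ≤ M0 * Real.exp (2 ^ (J - 1) * lam0) →
      (∀ p ∈ d.primeFactors, p ∈ Pr) → ∀ x : ℤ, mass G y M d x ≤ B * (d : ℝ) ^ τ * (X0 / d))
    (hQ : ∀ q ∈ QQ, 1 < q ∧ q ≤ M0 ∧ (∀ p ∈ q.primeFactors, p ∈ Pr) ∧
      (spn g q : ℝ) ≤ Real.exp (2 ^ (J - 1) * lam0))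
    (h1 : ∀ p ∈ Pr, ∀ v, 1 ≤ v → v ≤ g p →
      kw p v * (24 * 2 ^ J * ((p ^ g p : ℕ) : ℝ) ^ (τ + σ)) ≤ ε1)
    (h2 : ∑ q2 ∈ (QQ.image (hi g)).erase 1, kapProd kw q2 * (q2 : ℝ) ^ (2 * τ) ≤ ε2) :
    ∑ q ∈ QQ, kapProd kw q * enG G y M q ≤ 64 * (ε1 + ε2) * X0 ^ 2 * (B ^ 2 + 1) := by
  have hMr : (0 : ℝ) < M := by exact_mod_cast hM
  set c : ℝ := M / X0 with hc
  have hc0 : 0 < c := by positivity
  set B' : ℝ := max B 1 with hB'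
  have hB'0 : 0 < B' := lt_of_lt_of_le one_pos (le_max_right _ _)
  have hB'2 : B' ^ 2 + 1 ≤ 2 * (B ^ 2 + 1) := by
    rcases le_total B 1 with h | h
    · rw [hB', max_eq_right h]
      nlinarith [sq_nonneg B]
    · rw [hB', max_eq_left h]
      nlinarith [sq_nonneg B]
  have H : SumH Pr g (fun d r => ∀ x : ℤ, mass (fun n => c * G n) y M d x ≤ r * (M / (d : ℝ)))
      (enG (fun n => c * G n) y M) (2 * (M : ℝ) ^ 2) (A * c)
      (M0 * Real.exp (5 * 2 ^ J * lam0)) kw M0 J B' τ σ lam0 ε1 ε2 QQ :=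
    { prime := hPr
      hg := hg
      cls := cls_wt Pr g M y (fun n => c * G n) ν (A * c) E _ hPr hg
        (fun n => mul_nonneg hc0.le (hG0 n))
        (fun n => by
          have := mul_le_mul_of_nonneg_left (hG1 n) hc0.le
          calc c * G n ≤ c * (A * ν n) := this
            _ = A * c * ν n := by ring)
        (by positivity) hM hE hν hcap
      En0 := fun q => Finset.sum_nonneg fun _ _ => sq_nonneg _
      K0 := by positivity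
      kw0 := hkw
      A0 := by positivity
      J1 := hJ
      A1 := hAJ
      B0 := hB'0
      τ0 := hτ
      lam := hlam
      σl := hσ
      e10 := h10
      e11 := h11
      e20 := h20
      e21 := h21
      mass := by
        intro d hd1 hd2 hd3 x
        have h3 := hmass d hd1 hd2 hd3 x
        have hdr : (0 : ℝ) < d := by exact_mod_cast hd1
        have h4 : 0 ≤ (d : ℝ) ^ τ := Real.rpow_nonneg hdr.le _
        rw [mass_smul]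
        calc c * mass G y M d x ≤ c * (B * (d : ℝ) ^ τ * (X0 / d)) :=
              mul_le_mul_of_nonneg_left h3 hc0.le
          _ = B * (d : ℝ) ^ τ * (M / d) := by
              rw [hc]; field_simp
          _ ≤ B' * (d : ℝ) ^ τ * (M / d) := by
              have : B ≤ B' := le_max_left _ _
              gcongr
      cap := le_rfl
      hQ := hQ
      h1 := h1
      h2 := h2 }
  have h := H.total
  have h3 : ∑ q ∈ QQ, kapProd kw q * enG (fun n => c * G n) y M q =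
      c ^ 2 * ∑ q ∈ QQ, kapProd kw q * enG G y M q := by
    rw [Finset.mul_sum]
    refine Finset.sum_congr rfl fun q _ => ?_
    rw [enG_smul]
    ring
  rw [h3] at h
  have hc2 : 0 < c ^ 2 := by positivity
  rw [← le_div_iff₀' hc2] at h
  refine h.trans ?_
  rw [div_le_iff₀ hc2]
  have h4 : X0 ^ 2 * c ^ 2 = (M : ℝ) ^ 2 := by
    rw [hc]; field_simp
  calc 16 * (ε1 + ε2) * (2 * (M : ℝ) ^ 2) * (B' ^ 2 + 1)
      ≤ 16 * (ε1 + ε2) * (2 * (M : ℝ) ^ 2) * (2 * (B ^ 2 + 1)) := by gcongr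
    _ = 64 * (ε1 + ε2) * X0 ^ 2 * (B ^ 2 + 1) * c ^ 2 := by rw [← h4]; ring

/-- the class inequality of a cell -/
theorem cls_cell (Pr : Finset ℕ) (g : ℕ → ℕ) (L M : ℕ) (y c : ℤ) (G : ℤ → ℝ) (Gm : ℝ)
    (hPr : ∀ p ∈ Pr, p.Prime) (hPL : ∀ p ∈ Pr, Nat.Coprime p L) (hg : ∀ p ∈ Pr, 1 ≤ g p)
    (hL : 1 ≤ L) (hG0 : ∀ n, 0 ≤ G n) (hG1 : ∀ n, G n ≤ Gm) (hGm : 0 < Gm) :
    Cls Pr g (fun d r => ∀ z : ℤ, z ≡ c [ZMOD (L : ℕ)] →
      mass G y M (L * d) z ≤ r * (M / (L * (d : ℝ)))) (cellE G y M L c)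
      (8 * ((M : ℝ) / L) ^ 2) Gm (M / L) := by
  intro q2 m X β b Qs hq2 hm hX hβ hb hc hMB hQs
  rcases Qs.eq_empty_or_nonempty with hemp | ⟨q0, hq0⟩
  · rw [hemp, Finset.sum_empty]
    positivity
  have hLr : (0 : ℝ) < L := by exact_mod_cast hL
  have hD : ((⌊X⌋₊ : ℕ) : ℝ) ≤ X := Nat.floor_le (by linarith)
  have hcard : ((Fmm Pr g X).card : ℝ) ≤ X := (Fmm_card hPr hg).trans hD
  have hpb := pow_bound (q2 := q2) (m := m) hX hD hcard hc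
  have h := coreH Pr g L q2 M ⌊X⌋₊ m β Gm (fun p => (24 * m * b p)⁻¹) b G y c (Fmm Pr g X) Qs
    hPr hL hq2 hm hβ hGm
    (fun p hp => by
      have := hb p hp
      positivity) hb
    (fun p hp => rho_cond hm (hb p hp)) hG0 hG1
    (fun S hS => (mem_Fmm.1 hS).1)
    (fun S hS T hT => Fmm_down hPr hS hT)
    (fun S hS => Nat.le_floor (mem_Fmm.1 hS).2)
    (by
      rw [le_div_iff₀ hLr] at hpb
      have h1 : ((L * (q2 * ⌊X⌋₊ ^ (2 * m + 1) * (Fmm Pr g X).card ^ (2 * m)) : ℕ) : ℝ) ≤ M := by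
        rw [Nat.cast_mul, mul_comm]
        exact hpb
      exact_mod_cast h1)
    hMB
    (by
      intro q hq
      obtain ⟨h1, h2, h3, h4⟩ := hQs q hq
      refine ⟨h1, ?_, ?_, ?_⟩
      · rw [Nat.coprime_comm]
        apply Nat.coprime_of_dvd
        intro p hp hpq hpL
        have h5 : p ∈ q.primeFactors := Nat.mem_primeFactors.2 ⟨hp, hpq, by omega⟩
        exact (Nat.Prime.coprime_iff_not_dvd hp).1 (hPL p (h2 p h5)) hpL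
      · rw [← h3]; exact good_hi g Pr h2
      · rw [← h3, Ug_hi, mem_Fmm]
        exact ⟨fun p hp => h2 p (lo_sub g q hp), h4⟩)
  have h5 : ∀ q ∈ Qs, (∏ p ∈ lo g q, (24 * m * b p)⁻¹) * cellE G y M L c q =
      (∏ p ∈ Ug q2 q, (24 * m * b p)⁻¹) * cellE G y M L c q := by
    intro q hq
    rw [← (hQs q hq).2.2.1, Ug_hi]
  rw [Finset.sum_congr rfl h5]
  exact h

/-- **sum over all moduli of a cell** `c mod L` -/
theorem top_cell (Pr : Finset ℕ) (g : ℕ → ℕ) (L M M0 J : ℕ) (y c : ℤ) (G : ℤ → ℝ)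
    (kw : ℕ → ℕ → ℝ) (B Gm τ σ lam0 ε1 ε2 : ℝ) (QQ : Finset ℕ)
    (hPr : ∀ p ∈ Pr, p.Prime) (hPL : ∀ p ∈ Pr, Nat.Coprime p L) (hg : ∀ p ∈ Pr, 1 ≤ g p)
    (hL : 1 ≤ L) (hJ : 1 ≤ J) (hkw : ∀ p j, 0 ≤ kw p j)
    (hG0 : ∀ n, 0 ≤ G n) (hG1 : ∀ n, G n ≤ Gm) (hGm : 0 < Gm) (hGJ : Real.log Gm ≤ 2 ^ J)
    (hB : 0 < B) (hτ : 0 ≤ τ) (hlam : 0 < lam0) (hσ : 4 ≤ σ * lam0) (h10 : 0 ≤ ε1)
    (h11 : ε1 ≤ 1) (h20 : 0 ≤ ε2) (h21 : ε2 ≤ 1)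
    (hmass : ∀ d : ℕ, 1 ≤ d → (d : ℝ) ≤ M0 * Real.exp (2 ^ (J - 1) * lam0) →
      (∀ p ∈ d.primeFactors, p ∈ Pr) → ∀ z : ℤ, z ≡ c [ZMOD (L : ℕ)] →
        mass G y M (L * d) z ≤ B * (d : ℝ) ^ τ * (M / (L * (d : ℝ))))
    (hcap : (M0 : ℝ) * Real.exp (5 * 2 ^ J * lam0) ≤ M / L)
    (hQ : ∀ q ∈ QQ, 1 < q ∧ q ≤ M0 ∧ (∀ p ∈ q.primeFactors, p ∈ Pr) ∧
      (spn g q : ℝ) ≤ Real.exp (2 ^ (J - 1) * lam0))
    (h1 : ∀ p ∈ Pr, ∀ v, 1 ≤ v → v ≤ g p →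
      kw p v * (24 * 2 ^ J * ((p ^ g p : ℕ) : ℝ) ^ (τ + σ)) ≤ ε1)
    (h2 : ∑ q2 ∈ (QQ.image (hi g)).erase 1, kapProd kw q2 * (q2 : ℝ) ^ (2 * τ) ≤ ε2) :
    ∑ q ∈ QQ, kapProd kw q * cellE G y M L c q ≤
      128 * (ε1 + ε2) * ((M : ℝ) / L) ^ 2 * (B ^ 2 + 1) := by
  have H : SumH Pr g (fun d r => ∀ z : ℤ, z ≡ c [ZMOD (L : ℕ)] →
      mass G y M (L * d) z ≤ r * (M / (L * (d : ℝ)))) (cellE G y M L c)
      (8 * ((M : ℝ) / L) ^ 2) Gm (M / L) kw M0 J B τ σ lam0 ε1 ε2 QQ :=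
    { prime := hPr
      hg := hg
      cls := cls_cell Pr g L M y c G Gm hPr hPL hg hL hG0 hG1 hGm
      En0 := fun q => cellE_nonneg _ _ _ _ _ _
      K0 := by positivity
      kw0 := hkw
      A0 := hGm
      J1 := hJ
      A1 := hGJ
      B0 := hB
      τ0 := hτ
      lam := hlam
      σl := hσ
      e10 := h10
      e11 := h11
      e20 := h20
      e21 := h21
      mass := hmass
      cap := hcap
      hQ := hQ
      h1 := h1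
      h2 := h2 }
  refine H.total.trans (le_of_eq ?_)
  ring

end Vale.Agent.P042.H188
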